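import Vale.Agent.P297Y.Noe.Fin
import Vale.Agent.P297Y.Alg.Sk
import Vale.Agent.P297Z.Surf.AllOf

/-! P297, formula of Noether: the inequality in the form used by the algebraic part. -/

namespace Vale.Agent.P297Z.Sf

/-- the inequality of Noether for a fibration -/
theorem noe (h : DER) : NOE := fun K _ _ S φ =>
  Noe.noe K S S.all φ.a φ.u φ.M fun C => (h K S).fd_least φ.a φ.u
    (fun o => φ.a_ne (Subtype.ext o)) (fun c o => φ.u_nc c (Subtype.ext o)) C

end Vale.Agent.P297Z.Sf
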