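import Vale.Agent.P297Z.Diag.RegA

/-! P297, formula of Noether: the Koszul complex on four elements. -/

set_option linter.all false

noncomputable section

namespace Vale.Agent.P297Z.Sf.Noe

open Vale.Agent.P297Z.Dg.Rg (Nf)

/-- the basis of the exterior algebra -/
abbrev Ix : Type := Finset (Fin 4)

/-- the signs -/
def sg (i : Fin 4) (A : Ix) : ℤ := (-1) ^ (A.filter (· < i)).card

theorem sg_insert : ∀ (i : Fin 4) (A : Ix), sg i (insert i A) = sg i A := by decide

theorem sg_erase : ∀ (i : Fin 4) (A : Ix), sg i (A.erase i) = sg i A := by decide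

theorem sg_sq : ∀ (i : Fin 4) (A : Ix), sg i A * sg i A = 1 := by decide

theorem sg_ii : ∀ (i j : Fin 4) (A : Ix), i ≠ j → i ∉ A → j ∉ A →
    sg i A * sg j (insert i A) = -(sg j A * sg i (insert j A)) := by decide

theorem sg_ie : ∀ (i j : Fin 4) (A : Ix), i ≠ j → i ∉ A → j ∈ A →
    sg i A * sg j (insert i A) = -(sg j A * sg i (A.erase j)) := by decide

variable {R : Type} [CommRing R]

/-- the contraction -/
def io (i : Fin 4) : (Ix → R) →ₗ[R] (Ix → R) where
  toFun v A := if i ∈ A then 0 else (sg i A : R) * v (insert i A)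
  map_add' v w := funext fun A => by
    simp only [Pi.add_apply]
    split_ifs <;> ring
  map_smul' c v := funext fun A => by
    simp only [Pi.smul_apply, smul_eq_mul, RingHom.id_apply]
    split_ifs <;> ring

/-- the exterior multiplication -/
def ex (i : Fin 4) : (Ix → R) →ₗ[R] (Ix → R) where
  toFun v A := if i ∈ A then (sg i A : R) * v (A.erase i) else 0
  map_add' v w := funext fun A => by
    simp only [Pi.add_apply]
    split_ifs <;> ring
  map_smul' c v := funext fun A => by
    simp only [Pi.smul_apply, smul_eq_mul, RingHom.id_apply]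
    split_ifs <;> ring

theorem io_apply (i : Fin 4) (v : Ix → R) (A : Ix) :
    io i v A = if i ∈ A then 0 else (sg i A : R) * v (insert i A) := rfl

theorem ex_apply (i : Fin 4) (v : Ix → R) (A : Ix) :
    ex i v A = if i ∈ A then (sg i A : R) * v (A.erase i) else 0 := rfl

theorem io_io_self (i : Fin 4) (v : Ix → R) : io i (io i v) = 0 := funext fun A => by
  rw [io_apply, io_apply, if_pos (Finset.mem_insert_self i A), mul_zero, ite_self, Pi.zero_apply]

theorem io_io (i j : Fin 4) (v : Ix → R) : io i (io j v) = -io j (io i v) := by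
  by_cases h : i = j
  · subst h
    rw [io_io_self, neg_zero]
  funext A
  rw [Pi.neg_apply, io_apply, io_apply, io_apply, io_apply]
  by_cases hi : i ∈ A
  · rw [if_pos hi, if_pos (Finset.mem_insert_of_mem hi), mul_zero, ite_self, neg_zero]
  by_cases hj : j ∈ A
  · rw [if_pos hj, if_pos (Finset.mem_insert_of_mem hj), mul_zero, ite_self, neg_zero]
  have h1 : j ∉ insert i A := by simp [hj, Ne.symm h]
  have h2 : i ∉ insert j A := by simp [hi, h]
  have h3 : (sg i A : R) * sg j (insert i A) = -(sg j A * sg i (insert j A)) := by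
    exact_mod_cast congrArg (Int.cast : ℤ → R) (sg_ii i j A h hi hj)
  rw [if_neg hi, if_neg hj, if_neg h1, if_neg h2, Finset.insert_comm, ← mul_assoc, h3]
  ring

theorem io_ex (i j : Fin 4) (v : Ix → R) :
    io i (ex j v) = (if i = j then v else 0) - ex j (io i v) := by
  funext A
  rw [Pi.sub_apply, io_apply, ex_apply, ex_apply, io_apply]
  have hs : (sg i A : R) * sg i A = 1 := by
    exact_mod_cast congrArg (Int.cast : ℤ → R) (sg_sq i A)
  by_cases h : i = j
  · subst h
    rw [if_pos rfl]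
    by_cases hi : i ∈ A
    · rw [if_pos hi, if_pos hi, if_neg (Finset.notMem_erase i A), Finset.insert_erase hi, sg_erase,
        ← mul_assoc, hs, one_mul, sub_self]
    · rw [if_neg hi, if_neg hi, if_pos (Finset.mem_insert_self i A), Finset.erase_insert hi,
        sg_insert, ← mul_assoc, hs, one_mul, sub_zero]
  rw [if_neg h, Pi.zero_apply, zero_sub]
  by_cases hi : i ∈ A
  · rw [if_pos hi, if_pos (Finset.mem_erase.2 ⟨h, hi⟩), mul_zero, ite_self, neg_zero]
  by_cases hj : j ∈ A
  · have h2 : i ∉ A.erase j := fun o => hi (Finset.mem_of_mem_erase o)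
    have h3 : (sg i A : R) * sg j (insert i A) = -(sg j A * sg i (A.erase j)) := by
      exact_mod_cast congrArg (Int.cast : ℤ → R) (sg_ie i j A h hi hj)
    rw [if_neg hi, if_pos (Finset.mem_insert_of_mem hj), if_pos hj, if_neg h2,
      Finset.erase_insert_of_ne h, ← mul_assoc, h3]
    ring
  · have h1 : j ∉ insert i A := by simp [hj, Ne.symm h]
    rw [if_neg hi, if_neg h1, if_neg hj, mul_zero, neg_zero]

/-- the Koszul differential -/
def ct (f : Fin 4 → R) : (Ix → R) →ₗ[R] (Ix → R) := ∑ i, f i • io i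

theorem ct_eq (f : Fin 4 → R) (v : Ix → R) : ct f v = ∑ i, f i • io i v := by
  rw [ct, LinearMap.sum_apply]
  rfl

theorem ct_apply (f : Fin 4 → R) (v : Ix → R) (A : Ix) :
    ct f v A = ∑ i, if i ∈ A then 0 else f i * ((sg i A : R) * v (insert i A)) := by
  rw [ct_eq, Finset.sum_apply]
  refine Finset.sum_congr rfl fun i _ => ?_
  rw [Pi.smul_apply, io_apply, smul_eq_mul, mul_ite, mul_zero]

theorem ct_ex (f : Fin 4 → R) (j : Fin 4) (v : Ix → R) :
    ct f (ex j v) = f j • v - ex j (ct f v) := by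
  rw [ct_eq, ct_eq, map_sum]
  simp only [io_ex, smul_sub, Finset.sum_sub_distrib, map_smul, smul_ite, smul_zero,
    Finset.sum_ite_eq', Finset.mem_univ, if_true]

theorem ct_io (f : Fin 4 → R) (j : Fin 4) (v : Ix → R) : ct f (io j v) = -io j (ct f v) := by
  rw [ct_eq, ct_eq, map_sum, ← Finset.sum_neg_distrib]
  refine Finset.sum_congr rfl fun i _ => ?_
  rw [io_io, map_smul, smul_neg]

theorem ct_comm (f g : Fin 4 → R) (v : Ix → R) : ct f (ct g v) = -ct g (ct f v) := by
  rw [ct_eq g v, map_sum, ct_eq g, ← Finset.sum_neg_distrib]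
  refine Finset.sum_congr rfl fun i _ => ?_
  rw [map_smul, ct_io, smul_neg]

theorem ct_ct [Algebra ℂ R] (f : Fin 4 → R) (v : Ix → R) : ct f (ct f v) = 0 := by
  have h := ct_comm f f v
  have h2 : (2 : ℂ) • ct f (ct f v) = 0 := by
    rw [two_smul]
    exact add_eq_zero_iff_eq_neg.2 h
  exact (smul_eq_zero.1 h2).resolve_left two_ne_zero

theorem ct_map {R' : Type} [CommRing R'] {F : Type} [FunLike F R R'] [RingHomClass F R R'] (φ : F)
    (f : Fin 4 → R) (v : Ix → R) :
    (fun A => φ (ct f v A)) = ct (fun i => φ (f i)) fun A => φ (v A) := funext fun A => by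
  rw [ct_apply, ct_apply, map_sum]
  refine Finset.sum_congr rfl fun i _ => ?_
  split_ifs
  · exact map_zero φ
  · rw [map_mul, map_mul, map_intCast]

theorem ex_map {R' : Type} [CommRing R'] {F : Type} [FunLike F R R'] [RingHomClass F R R'] (φ : F)
    (j : Fin 4) (v : Ix → R) : (fun A => φ (ex j v A)) = ex j fun A => φ (v A) :=
  funext fun A => by
    rw [ex_apply, ex_apply]
    split_ifs
    · rw [map_mul, map_intCast]
    · exact map_zero φ

theorem ct_lin (s t : R) (f g : Fin 4 → R) (v : Ix → R) :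
    ct (fun i => f i * s + g i * t) v = s • ct f v + t • ct g v := by
  rw [ct_eq, ct_eq, ct_eq, Finset.smul_sum, Finset.smul_sum, ← Finset.sum_add_distrib]
  refine Finset.sum_congr rfl fun i _ => ?_
  rw [add_smul, smul_smul, smul_smul, mul_comm s, mul_comm t]

theorem ct_smul (s : R) (f : Fin 4 → R) (v : Ix → R) : ct (fun i => s * f i) v = s • ct f v := by
  rw [ct_eq, ct_eq, Finset.smul_sum]
  exact Finset.sum_congr rfl fun i _ => mul_smul _ _ _

/-- the projector -/
def pj (i₁ i₂ : Fin 4) (a b : Fin 4 → R) (v : Ix → R) : Ix → R := ct a (ex i₁ (ct b (ex i₂ v)))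

variable {f a b : Fin 4 → R} {i₁ i₂ : Fin 4} {r : R}

theorem pj_of_zero (a1 : a i₁ = r) (b2 : b i₂ = r) {v : Ix → R} (ha : ct a v = 0)
    (hb : ct b v = 0) : pj i₁ i₂ a b v = (r * r) • v := by
  rw [pj, ct_ex b, hb, map_zero, sub_zero, b2, map_smul, map_smul, ct_ex, ha, map_zero, sub_zero,
    a1, smul_smul]

theorem pj_map {R' : Type} [CommRing R'] {F : Type} [FunLike F R R'] [RingHomClass F R R'] (φ : F)
    (v : Ix → R) : (fun A => φ (pj i₁ i₂ a b v A)) =
      pj i₁ i₂ (fun i => φ (a i)) (fun i => φ (b i)) fun A => φ (v A) := by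
  rw [pj, pj, ct_map, ex_map, ct_map, ex_map]

variable [Algebra ℂ R]

theorem ct_pj_left (v : Ix → R) : ct a (pj i₁ i₂ a b v) = 0 := ct_ct _ _

theorem ct_pj_right (b1 : b i₁ = 0) (v : Ix → R) : ct b (pj i₁ i₂ a b v) = 0 := by
  rw [pj, ct_comm, ct_ex b, b1, zero_smul, ct_ct, map_zero, sub_zero, map_zero, neg_zero]

omit [Algebra ℂ R] in
theorem Nf_ct (h : Nf f i₁ i₂ r a b) (v : Ix → R) :
    r • ct f v = f i₁ • ct a v + f i₂ • ct b v := by
  rw [← ct_lin, ← ct_smul]
  exact congrArg (fun g => ct g v) (funext h.gen)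

theorem ct_pj [IsDomain R] (h : Nf f i₁ i₂ r a b) (hr : r ≠ 0) (v : Ix → R) :
    ct f (pj i₁ i₂ a b v) = 0 := by
  have h1 := Nf_ct h (pj i₁ i₂ a b v)
  rw [ct_pj_left, ct_pj_right h.b1, smul_zero, smul_zero, add_zero] at h1
  exact (smul_eq_zero.1 h1).resolve_left hr

theorem unif {ι : Type} [Fintype ι] {z : R →ₐ[ℂ] ℂ} {P : ι → R → Prop}
    (h : ∀ i, ∃ s, z s ≠ 0 ∧ P i s) (hm : ∀ i s t, P i s → P i (t * s)) :
    ∃ s, z s ≠ 0 ∧ ∀ i, P i s := by
  classical
  choose s hs hP using h
  refine ⟨∏ i, s i, ?_, fun i => ?_⟩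
  · rw [map_prod]
    exact Finset.prod_ne_zero_iff.2 fun i _ => hs i
  · rw [← Finset.prod_erase_mul _ _ (Finset.mem_univ i)]
    exact hm _ _ _ (hP i)

/-- the cycles with coefficients in the ideal are boundaries -/
theorem loc [IsDomain R] {z : R →ₐ[ℂ] ℂ} (h : Nf f i₁ i₂ r a b) (hr : z r ≠ 0) (h1 : f i₁ ≠ 0)
    (h2 : f i₂ ≠ 0)
    (hs : ∀ α β, α * f i₁ + β * f i₂ = 0 → ∃ s c, z s ≠ 0 ∧ s * α = c * f i₂ ∧ s * β = -(c * f i₁))
    {x : Ix → R} (hx : ct f x = 0)
    (hI : ∀ A, ∃ s, z s ≠ 0 ∧ s * x A ∈ Ideal.span (Set.range f)) :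
    ∃ s y, z s ≠ 0 ∧ ct f y = s • x := by
  have e0 : f i₁ • ct a x + f i₂ • ct b x = 0 := by rw [← Nf_ct h, hx, smul_zero]
  obtain ⟨s, hs0, hc⟩ := unif (z := z) (P := fun (A : Ix) s =>
      ∃ c, s * ct a x A = c * f i₂ ∧ s * ct b x A = -(c * f i₁)) (fun A => by
    have e1 := congrFun e0 A
    simp only [Pi.add_apply, Pi.smul_apply, smul_eq_mul, Pi.zero_apply] at e1
    obtain ⟨s, c, k1, k2⟩ := hs (ct a x A) (ct b x A) (by linear_combination e1)
    exact ⟨s, k1, c, k2⟩) (by
    rintro A s t ⟨c, k1, k2⟩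
    exact ⟨t * c, by linear_combination t * k1, by linear_combination t * k2⟩)
  choose c hc1 hc2 using hc
  have c1 : s • ct a x = f i₂ • c := funext fun A => by
    simp only [Pi.smul_apply, smul_eq_mul]
    linear_combination hc1 A
  have c2 : s • ct b x = -(f i₁ • c) := funext fun A => by
    simp only [Pi.smul_apply, Pi.neg_apply, smul_eq_mul]
    linear_combination hc2 A
  have ca : ct a c = 0 := by
    have := congrArg (ct a) c1
    rw [map_smul, map_smul, ct_ct, smul_zero] at this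
    exact (smul_eq_zero.1 this.symm).resolve_left h2
  have cb : ct b c = 0 := by
    have := congrArg (ct b) c2
    rw [map_smul, map_neg, map_smul, ct_ct, smul_zero] at this
    exact (smul_eq_zero.1 (neg_eq_zero.1 this.symm)).resolve_left h1
  have k1 : ct a (ex i₂ c) = 0 := by rw [ct_ex, ca, h.a2, zero_smul, map_zero, sub_zero]
  have k2 : ct b (ex i₁ c) = 0 := by rw [ct_ex, cb, h.b1, zero_smul, map_zero, sub_zero]
  have k3 : ct a (ex i₁ c) = r • c := by rw [ct_ex, ca, h.a1, map_zero, sub_zero]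
  have k4 : ct b (ex i₂ c) = r • c := by rw [ct_ex, cb, h.b2, map_zero, sub_zero]
  -- the corrected cycle
  set x' : Ix → R := (r * s) • x + (f i₁ • ex i₂ c - f i₂ • ex i₁ c) with hx'
  have xa : ct a x' = 0 := by
    rw [hx', map_add, map_sub, map_smul, map_smul, map_smul, k1, k3, mul_smul, c1, smul_zero,
      zero_sub, smul_comm, add_neg_cancel]
  have xb : ct b x' = 0 := by
    rw [hx', map_add, map_sub, map_smul, map_smul, map_smul, k2, k4, mul_smul, c2, smul_zero,
      sub_zero, smul_neg, smul_comm, neg_add_cancel]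
  have xd : ct f (ex i₁ (ex i₂ c)) = f i₁ • ex i₂ c - f i₂ • ex i₁ c := by
    have e1 : ct f c = 0 := by
      have := Nf_ct h c
      rw [ca, cb, smul_zero, smul_zero, add_zero] at this
      exact (smul_eq_zero.1 this).resolve_left fun o => hr (by rw [o, map_zero])
    rw [ct_ex, ct_ex, e1, map_zero, sub_zero, map_smul]
  obtain ⟨t, ht0, hy⟩ := unif (z := z) (P := fun (A : Ix) t =>
      ∃ p q, t * x A = p * f i₁ + q * f i₂) (fun A => by
    obtain ⟨t, k1, k2⟩ := hI A
    obtain ⟨w, hw⟩ := (Ideal.mem_span_range_iff_exists_fun).1 k2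
    refine ⟨r * t, by rw [map_mul]; exact mul_ne_zero hr k1, ∑ i, w i * a i, ∑ i, w i * b i, ?_⟩
    rw [mul_assoc, ← hw, Finset.mul_sum, Finset.sum_mul, Finset.sum_mul, ← Finset.sum_add_distrib]
    exact Finset.sum_congr rfl fun i _ => by linear_combination w i * h.gen i) (by
    rintro A s t ⟨p, q, k⟩
    exact ⟨t * p, t * q, by linear_combination t * k⟩)
  choose p q hpq using hy
  have e2 : t • x = f i₁ • p + f i₂ • q := funext fun A => by
    simp only [Pi.add_apply, Pi.smul_apply, smul_eq_mul]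
    linear_combination hpq A
  set y₁ : Ix → R := (r * s) • p + t • ex i₂ c with hy₁
  set y₂ : Ix → R := (r * s) • q - t • ex i₁ c with hy₂
  have e3 : t • x' = f i₁ • y₁ + f i₂ • y₂ := by
    rw [hx', hy₁, hy₂, smul_add, smul_comm t, e2]
    module
  have e4 : (r * r) • t • x' = f i₁ • pj i₁ i₂ a b y₁ + f i₂ • pj i₁ i₂ a b y₂ := by
    rw [← pj_of_zero h.a1 h.b2 (by rw [map_smul, xa, smul_zero]) (by rw [map_smul, xb, smul_zero]),
      e3]
    simp only [pj, map_add, map_smul]
  have hr0 : r ≠ 0 := fun o => hr (by rw [o, map_zero])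
  refine ⟨r * r * t * (r * s), ex i₁ (pj i₁ i₂ a b y₁) + ex i₂ (pj i₁ i₂ a b y₂) -
    (r * r * t) • ex i₁ (ex i₂ c), ?_, ?_⟩
  · simp only [map_mul]
    exact mul_ne_zero (mul_ne_zero (mul_ne_zero hr hr) ht0) (mul_ne_zero hr hs0)
  · rw [map_sub, map_add, ct_ex, ct_ex, ct_pj h hr0, ct_pj h hr0, map_zero, map_zero, sub_zero,
      sub_zero, ← e4, map_smul, xd, hx']
    module

end Vale.Agent.P297Z.Sf.Noe
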