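import Vale.Agent.P297Y.Noe.Defs
import Vale.Agent.P297Z.Surf.RR

/-! P297, formula of Noether: the count of the cycles along the diagonal. -/

set_option linter.all false

open Filter Finset Module

noncomputable section

namespace Vale.Agent.P297Z.Sf.Noe

open _root_.P297Z.Diff
open Vale.Agent.P297Z.Dg (pl der_pl)

namespace Cn

/-- the signs of the top cycle -/
def cs (i j : Fin 4) (A : Ix) : ℤ :=
  if i ∈ A then 0 else if j ∈ insert i A then 0 else
    if insert j (insert i A) = univ then sg i A * sg j (insert i A) else 0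

theorem cs_zero : ∀ (A : Ix) (i j : Fin 4), A.card ≠ 2 → cs i j A = 0 := by decide

theorem cs_pair : ∀ i j : Fin 4, i ≠ j → cs i j (univ \ {i, j}) * cs i j (univ \ {i, j}) = 1 ∧
    ∀ k l, cs k l (univ \ {i, j}) = cs i j (univ \ {i, j}) *
      ((if l = j then if k = i then 1 else 0 else 0) -
        if l = i then if k = j then 1 else 0 else 0) := by decide

theorem two_pair : ∀ A : Ix, A.card = 2 → ∃ i j : Fin 4, i ≠ j ∧ A = univ \ {i, j} := by decide

theorem card_pair : ∀ i j : Fin 4, i ≠ j → (univ \ {i, j} : Ix).card = 2 := by decide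

section

variable {R : Type} [CommRing R]

/-- the top cycle -/
def tp (α β : Fin 4 → R) : Ix → R := ct α (ct β (Pi.single univ 1))

theorem tp_apply (α β : Fin 4 → R) (A : Ix) :
    tp α β A = ∑ i, ∑ j, (cs i j A : R) * (α i * β j) := by
  rw [tp, ct_apply]
  refine sum_congr rfl fun i _ => ?_
  by_cases hi : i ∈ A
  · simp [cs, hi]
  rw [if_neg hi, ct_apply, mul_sum, mul_sum]
  refine sum_congr rfl fun j _ => ?_
  rw [cs, if_neg hi, Pi.single_apply]
  split_ifs <;> push_cast <;> ring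

theorem tp_zero (α β : Fin 4 → R) {A : Ix} (h : A.card ≠ 2) : tp α β A = 0 := by
  simp [tp_apply, cs_zero A _ _ h]

theorem tp_pair (α β : Fin 4 → R) {i j : Fin 4} (h : i ≠ j) :
    tp α β (univ \ {i, j}) = (cs i j (univ \ {i, j}) : R) * (α i * β j - β i * α j) := by
  have h1 := (cs_pair i j h).2
  rw [tp_apply]
  generalize cs i j (univ \ {i, j}) = c at h1
  simp [h1, mul_sub, sub_mul, sum_sub_distrib, mul_comm (β i)]

theorem ct_bot (f : Fin 4 → R) (a : R) : ct f (Pi.single ∅ a) = 0 := funext fun A => by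
  simp [ct_apply]

theorem ct_one (f g : Fin 4 → R) :
    ct f (∑ i, Pi.single {i} (g i)) = Pi.single ∅ (∑ i, g i * f i) := funext fun A => by
  have h : ∀ (A : Ix) (i j : Fin 4), i ∉ A → (insert i A = {j} ↔ A = ∅ ∧ j = i) := by decide
  rw [ct_apply, Pi.single_apply]
  split_ifs with hA
  · subst hA
    refine sum_congr rfl fun i _ => ?_
    simp [Finset.sum_apply, Pi.single_apply, sg, mul_comm]
  · refine sum_eq_zero fun i _ => ?_
    split_ifs with hi
    · rfl
    · simp [Finset.sum_apply, Pi.single_apply, h A i _ hi, hA]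

end

theorem rank_le {V X : Type} [AddCommGroup V] [Module ℂ V] [AddCommGroup X] [Module ℂ X]
    (U : Submodule ℂ V) [FiniteDimensional ℂ U] (φ : V →ₗ[ℂ] X) (T : Submodule ℂ X)
    [FiniteDimensional ℂ T] (h : ∀ x ∈ U, φ x ∈ T) :
    finrank ℂ U ≤ finrank ℂ ↥(U ⊓ LinearMap.ker φ) + finrank ℂ T := by
  have h1 := LinearMap.finrank_range_add_finrank_ker (φ.domRestrict U)
  have h2 : finrank ℂ (LinearMap.range (φ.domRestrict U)) ≤ finrank ℂ T :=
    Submodule.finrank_mono (by rintro _ ⟨x, rfl⟩; exact h x x.2)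
  have h3 := Submodule.finrank_map_subtype_eq U (LinearMap.ker (φ.domRestrict U))
  rw [LinearMap.ker_domRestrict, Submodule.map_comap_subtype, ← LinearMap.ker_domRestrict] at h3
  omega

variable {K : Type} [Field K] [Algebra ℂ K] {S : Surf K}

theorem mem_of_mul {W : Submodule ℂ K} {C : Crv W} {f g : K} {D D' : Div W} (hg : g ≠ 0)
    (h : f * g ∈ secOn (· = C) D) (e : D C + C.ord g ≤ D' C) : f = 0 ∨ 0 ≤ C.ord f + D' C := by
  by_cases hf : f = 0
  · exact Or.inl hf
  have h1 := h.resolve_left (mul_ne_zero hf hg) C rfl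
  unfold Crv.ord at *
  rw [Pl.ord_mul _ hf hg] at h1
  exact Or.inr (by omega)

theorem mem_H0 {W : Submodule ℂ K} {f : K} {D : Div W}
    (h : ∀ C : Crv W, f = 0 ∨ 0 ≤ C.ord f + D C) : f ∈ H0 D := by
  by_cases hf : f = 0
  · exact Or.inl hf
  · exact Or.inr fun C _ => (h C).resolve_left hf

theorem H0_le {W : Submodule ℂ K} (C : Crv W) (D : Div W) : H0 D ≤ secOn (· = C) D :=
  secOn_mono fun _ _ => ⟨trivial, le_rfl⟩

theorem chi_add (h : S.All) (A : Div S.W) (k : ℤ) : 2 * chi (A + k • S.H) =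
    2 * chi (0 : Div S.W) + inter A A - inter S.kap A + k * (2 * inter A S.H - inter S.kap S.H) +
      k ^ 2 * inter S.H S.H := by
  rw [h.rr]
  have e := inter_comm S.H A
  simp only [← interHom_apply h.toRR, map_add, map_zsmul, AddMonoidHom.add_apply,
    AddMonoidHom.smul_apply, smul_eq_mul] at e ⊢
  rw [e]
  ring

theorem sum_card (F : ℤ → ℤ) :
    ∑ A : Ix, F A.card = F 0 + 4 * F 1 + 6 * F 2 + 4 * F 3 + F 4 := by
  rw [← powerset_univ, sum_powerset_apply_card (fun n => F n)]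
  simp [sum_range_succ, Nat.choose]

theorem num (h : S.All) (D : Div S.W) (m : ℤ) : ∑ A : Ix, chi ((m - A.card) • S.H) =
    chi (0 + (2 * m) • S.H) + 4 * chi (0 + (2 * (m - 1)) • S.H) +
      chi (-S.kap + (2 * m - 8) • S.H) - chi (S.kap - D + (2 * m) • S.H) -
      chi (D + (2 * m) • S.H) +
      (12 * chi (0 : Div S.W) - (inter S.kap S.kap + inter D (S.kap - D))) := by
  have h0 : ∀ k : ℤ, 2 * chi (k • S.H) = _ := fun k => zero_add (k • S.H) ▸ chi_add h 0 k
  have h1 := chi_add h 0 (2 * m)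
  have h2 := chi_add h 0 (2 * (m - 1))
  have h3 := chi_add h (-S.kap) (2 * m - 8)
  have h4 := chi_add h (S.kap - D) (2 * m)
  have h5 := chi_add h D (2 * m)
  have e := inter_comm D S.kap
  simp only [← interHom_apply h.toRR, map_sub, map_neg, map_zero, AddMonoidHom.sub_apply,
    AddMonoidHom.neg_apply, AddMonoidHom.zero_apply] at h0 h1 h2 h3 h4 h5 e ⊢
  rw [sum_card fun n => chi ((m - n) • S.H)]
  refine mul_left_cancel₀ (two_ne_zero (α := ℤ)) ?_
  linear_combination h0 (m - 0) + 4 * h0 (m - 1) + 6 * h0 (m - 2) + 4 * h0 (m - 3) + h0 (m - 4) -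
    h1 - 4 * h2 - h3 + h4 + h5 + e

/-- the form `A dx + B dy` has poles at most on `n H` -/
def Frm (S : Surf K) (n : ℤ) (A B : K) : Prop :=
  ∀ (C : Crv S.W) (δ : Derivation ℂ K K), RegDer C.pl δ →
    δ (S.x 1 / S.x 0) * A + δ (S.x 2 / S.x 0) * B ∈ secOn (· = C) (n • S.H)

variable {a u : K} {D : Div S.W} {d : Fin 2 → Derivation ℂ K K} {α β : Fin 4 → K}

theorem minor_mem (h : S.All) (hη : ∀ i, Frm S 2 (α i) (β i)) (i j : Fin 4) :
    α i * β j - β i * α j ∈ M S.kap 4 := mem_H0 fun C => by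
  obtain ⟨δ₁, δ₂, h1, h2, h3, h4⟩ := (h.least _ _ S.indep C).1
  refine mem_of_mul h3 (D := (2 : ℤ) • S.H + (2 : ℤ) • S.H) ?_ ?_
  · convert sub_mem (mul_mem_secOn (hη i C δ₁ h1) (hη j C δ₂ h2))
      (mul_mem_secOn (hη i C δ₂ h2) (hη j C δ₁ h1)) using 1
    rw [wedge]
    ring
  · simp only [Finsupp.add_apply, Finsupp.smul_apply, smul_eq_mul, Surf.kap, Surf.H, Crv.ord, h4]
    omega

theorem frm_sum (hη : ∀ i, Frm S 2 (α i) (β i)) {m : ℤ} {f : Fin 4 → K}
    (hf : ∀ i, f i ∈ M (0 : Div S.W) (2 * (m - 1))) :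
    Frm S (2 * m) (∑ i, f i * α i) (∑ i, f i * β i) := fun C δ hδ => by
  rw [mul_sum, mul_sum, ← sum_add_distrib]
  refine sum_mem fun i _ => ?_
  convert mul_mem_secOn (H0_le C _ (hf i)) (hη i C δ hδ) using 1
  · rw [zero_add, ← add_smul]
    congr 2
    ring
  · ring

theorem du_mem (hD : IsDivF a u D) (C : Crv S.W) {δ : Derivation ℂ K K} (hδ : RegDer C.pl δ) :
    a * δ u ∈ secOn (· = C) (-D) := by
  by_cases h0 : a * δ u = 0
  · exact Or.inl h0
  refine Or.inr fun C' e => ?_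
  subst e
  have := (hD C').2 ⟨δ, hδ, h0, rfl⟩
  rw [Finsupp.neg_apply]
  omega

theorem phi1_mem (h : S.All) (hD : IsDivF a u D) (hd : Coord (pl S) d) {n : ℤ} {A B : K}
    (hF : Frm S n A B) : a * (A * d 1 u - B * d 0 u) ∈ M (S.kap - D) n := mem_H0 fun C => by
  obtain ⟨δ₁, δ₂, h1, h2, h3, h4⟩ := (h.least _ _ S.indep C).1
  refine mem_of_mul h3 (D := n • S.H + -D) ?_ ?_
  · convert sub_mem (mul_mem_secOn (hF C δ₁ h1) (du_mem hD C h2))
      (mul_mem_secOn (hF C δ₂ h2) (du_mem hD C h1)) using 1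
    rw [wedge, der_pl hd δ₁ u, der_pl hd δ₂ u]
    ring
  · simp only [Finsupp.add_apply, Finsupp.sub_apply, Finsupp.neg_apply, Surf.kap, Surf.H, Crv.ord, h4]
    omega

theorem phi2_mem (hD : IsDivF a u D) (hd : Coord (pl S) d) {n : ℤ} {c : K}
    (hF : Frm S n (c * (a * d 0 u)) (c * (a * d 1 u))) : c ∈ M D n := mem_H0 fun C => by
  obtain ⟨δ, h1, h2, h3⟩ := (hD C).1
  refine mem_of_mul h2 (D := n • S.H) ?_ ?_
  · convert hF C δ h1 using 1
    rw [der_pl hd δ u]
    ring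
  · rw [Finsupp.add_apply, h3, add_comm]

theorem exists_s (h : S.All) (hD : IsDivF a u D) (hd : Coord (pl S) d) :
    ∃ s t : K, s * (a * d 0 u) + t * (a * d 1 u) = 1 := by
  obtain ⟨C⟩ : Nonempty (Crv S.W) := by
    by_contra hc
    rw [not_nonempty_iff] at hc
    have h1 := h.sq
    rw [Subsingleton.elim S.H 0, inter] at h1
    simp at h1
  obtain ⟨δ, -, h2, -⟩ := (hD C).1
  refine ⟨δ (S.x 1 / S.x 0) / (a * δ u), δ (S.x 2 / S.x 0) / (a * δ u), ?_⟩
  rw [div_mul_eq_mul_div, div_mul_eq_mul_div, ← add_div, div_eq_one_iff_eq h2, der_pl hd δ u]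
  ring

/-- the space of parameters -/
abbrev VV (S : Surf K) (m : ℤ) : Type :=
  M (0 : Div S.W) (2 * m) × (Fin 4 → M (0 : Div S.W) (2 * (m - 1))) × M (-S.kap) (2 * m - 8)

/-- the linear combination -/
def cmb (S : Surf K) (m : ℤ) (α : Fin 4 → K) : VV S m →ₗ[ℂ] K where
  toFun x := ∑ i, (x.2.1 i : K) * α i
  map_add' x y := by simp [add_mul, sum_add_distrib]
  map_smul' c x := by simp [smul_sum]

/-- the parametrisation -/
def Ps (S : Surf K) (m : ℤ) (w : Ix → K) : VV S m →ₗ[ℂ] (Ix → K) where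
  toFun x := Pi.single ∅ (x.1 : K) + ∑ i, Pi.single {i} (x.2.1 i : K) + (x.2.2 : K) • w
  map_add' x y := by
    simp only [Prod.fst_add, Prod.snd_add, Pi.add_apply, Submodule.coe_add, Pi.single_add,
      sum_add_distrib, add_smul]
    abel
  map_smul' c x := by
    simp only [Prod.smul_fst, Prod.smul_snd, Pi.smul_apply, Submodule.coe_smul, Pi.single_smul,
      RingHom.id_apply, smul_add, smul_sum, smul_assoc]

theorem Ps_apply (m : ℤ) (w : Ix → K) (x : VV S m) (A : Ix) : Ps S m w x A =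
    (if A = ∅ then (x.1 : K) else 0) + (∑ i, if A = {i} then (x.2.1 i : K) else 0) +
      x.2.2 * w A := by
  simp [Ps, Finset.sum_apply, Pi.single_apply]

theorem Ps_inj (m : ℤ) {i j : Fin 4} (h : α i * β j - β i * α j ≠ 0) :
    Function.Injective (Ps S m (tp α β)) := by
  have hij : i ≠ j := fun e => h (by rw [e, mul_comm, sub_self])
  refine (injective_iff_map_eq_zero _).2 fun x hx => Prod.ext ?_ (Prod.ext (funext fun k => ?_) ?_)
  · have := congrFun hx ∅
    rw [Ps_apply, tp_zero _ _ (by decide)] at this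
    simpa using this
  · have := congrFun hx {k}
    rw [Ps_apply, tp_zero _ _ (by simp)] at this
    simpa using this
  · have h1 := congrFun hx (univ \ {i, j})
    have h2 := card_pair i j hij
    have h3 : (cs i j (univ \ {i, j}) : K) ≠ 0 := left_ne_zero_of_mul_eq_one
      ((Int.cast_mul _ _).symm.trans ((congrArg _ (cs_pair i j hij).1).trans Int.cast_one))
    rw [Ps_apply, tp_pair _ _ hij, if_neg fun e => by simp [e] at h2,
      sum_eq_zero fun k _ => if_neg fun e => by simp [e] at h2] at h1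
    simpa [h, h3] using h1

theorem Ps_mem (h : S.All) (hη : ∀ i, Frm S 2 (α i) (β i)) (m : ℤ) {x : VV S m}
    (h1 : cmb S m α x = 0) (h2 : cmb S m β x = 0) : Ps S m (tp α β) x ∈ EE S α β m := by
  have e : ∀ f, ct f (Ps S m (tp α β) x) =
      Pi.single ∅ (cmb S m f x) + (x.2.2 : K) • ct f (tp α β) := fun f => by
    change ct f (_ + _ + _) = _
    rw [map_add, map_add, ct_bot, ct_one, map_smul, zero_add]
    rfl
  refine ⟨⟨fun A _ => ?_, ?_⟩, ?_⟩
  · beta_reduce
    rw [Ps_apply]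
    refine add_mem (add_mem ?_ (sum_mem fun i _ => ?_)) ?_
    · split_ifs with hA
      · simpa [hA] using x.1.2
      · exact zero_mem _
    · split_ifs with hA
      · simpa [hA] using (x.2.1 i).2
      · exact zero_mem _
    · by_cases hA : A.card = 2
      · obtain ⟨i, j, hij, e⟩ := two_pair A hA
        have h3 := mul_mem_M x.2.2.2 (minor_mem h hη i j)
        rw [neg_add_cancel, show 2 * m - 8 + 4 = 2 * (m - (2 : ℕ)) by push_cast; ring] at h3
        rw [hA, e, tp_pair _ _ hij, mul_left_comm, ← zsmul_eq_mul]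
        exact zsmul_mem h3 _
      · rw [tp_zero _ _ hA, mul_zero]
        exact zero_mem _
  · change ct α _ = 0
    rw [e, h1, tp, ct_ct, Pi.single_zero, smul_zero, add_zero]
  · change ct β _ = 0
    rw [e, h2, tp, ct_comm, ct_ct, Pi.single_zero, map_zero, neg_zero, smul_zero, add_zero]

theorem count (h : S.All) (hD : IsDivF a u D) (hd : Coord (pl S) d)
    (hη : ∀ i, Frm S 2 (α i) (β i)) {i j : Fin 4} (hm : α i * β j - β i * α j ≠ 0) (m : ℤ) :
    finrank ℂ (M (0 : Div S.W) (2 * m)) + 4 * finrank ℂ (M (0 : Div S.W) (2 * (m - 1))) +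
      finrank ℂ (M (-S.kap) (2 * m - 8)) ≤
      finrank ℂ (EE S α β m) + finrank ℂ (M (S.kap - D) (2 * m)) + finrank ℂ (M D (2 * m)) := by
  have fin := fun D n => (h.fg D).1 n
  have : FiniteDimensional ℂ (EE S α β m) := by
    have : FiniteDimensional ℂ (Submodule.pi Set.univ fun A : Ix =>
        M (0 : Div S.W) (2 * (m - A.card))) :=
      Module.Finite.iff_fg.2 (Submodule.fg_pi fun A => Module.Finite.iff_fg.1 (fin _ _))
    exact Submodule.finiteDimensional_of_le (inf_le_left.trans inf_le_left)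
  obtain ⟨s, t, hst⟩ := exists_s h hD hd
  let φ₁ : VV S m →ₗ[ℂ] K := LinearMap.mulLeft ℂ a ∘ₗ
    (LinearMap.mulRight ℂ (d 1 u) ∘ₗ cmb S m α - LinearMap.mulRight ℂ (d 0 u) ∘ₗ cmb S m β)
  let φ₂ : VV S m →ₗ[ℂ] K := LinearMap.mulRight ℂ s ∘ₗ cmb S m α + LinearMap.mulRight ℂ t ∘ₗ cmb S m β
  have hF : ∀ x : VV S m, Frm S (2 * m) (cmb S m α x) (cmb S m β x) := fun x =>
    frm_sum hη fun i => (x.2.1 i).2
  have k : ∀ x ∈ ⊤ ⊓ LinearMap.ker φ₁,
      cmb S m α x = φ₂ x * (a * d 0 u) ∧ cmb S m β x = φ₂ x * (a * d 1 u) := fun x hx => by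
    have h1 : a * (cmb S m α x * d 1 u - cmb S m β x * d 0 u) = 0 := hx.2
    change _ = (cmb S m α x * s + cmb S m β x * t) * _ ∧ _ = (cmb S m α x * s + cmb S m β x * t) * _
    exact ⟨by linear_combination t * h1 - cmb S m α x * hst,
      by linear_combination (-s) * h1 - cmb S m β x * hst⟩
  have r1 := rank_le ⊤ φ₁ (M (S.kap - D) (2 * m)) fun x _ => phi1_mem h hD hd (hF x)
  have r2 := rank_le (⊤ ⊓ LinearMap.ker φ₁) φ₂ (M D (2 * m)) fun x hx =>
    phi2_mem hD hd ((k x hx).1 ▸ (k x hx).2 ▸ hF x)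
  have r3 : finrank ℂ ↥(⊤ ⊓ LinearMap.ker φ₁ ⊓ LinearMap.ker φ₂) ≤ finrank ℂ (EE S α β m) := by
    rw [(Submodule.equivMapOfInjective _ (Ps_inj m hm) _).finrank_eq]
    refine Submodule.finrank_mono ?_
    rintro _ ⟨x, hx, rfl⟩
    have h1 := k x hx.1
    rw [show φ₂ x = 0 from hx.2, zero_mul, zero_mul] at h1
    exact Ps_mem h hη m h1.1 h1.2
  rw [finrank_top, finrank_prod, finrank_prod, finrank_pi_fintype, sum_const, card_univ,
    Fintype.card_fin, smul_eq_mul] at r1
  omega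

end Cn

theorem cnt : CNT := fun K _ _ S h a u D hD d hd α β hη ⟨i, j, hm⟩ => by
  obtain ⟨m₁, h1⟩ := h.large 0
  obtain ⟨m₂, h2⟩ := h.large (-S.kap)
  obtain ⟨m₃, h3⟩ := h.large (S.kap - D)
  obtain ⟨m₄, h4⟩ := h.large D
  filter_upwards [eventually_ge_atTop (max (max m₁ m₂) (max m₃ m₄)), eventually_ge_atTop 8]
    with m hm1 hm2
  have h5 := Cn.count h hD hd (fun i C δ hδ => hη C δ hδ i) hm m
  rw [Cn.num h D m, ← h1 _ (by omega), ← h1 _ (by omega), ← h2 _ (by omega), ← h3 _ (by omega),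
    ← h4 _ (by omega), h0_eq, h0_eq, h0_eq, h0_eq, h0_eq]
  omega

end Vale.Agent.P297Z.Sf.Noe
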