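import Vale.Agent.P297Y.Noe.Hs

/-! P297, formula of Noether: the trace formula for the Koszul complex. -/

set_option linter.all false

open Filter

noncomputable section

namespace Vale.Agent.P297Z.Sf.Noe

open Vale.Agent.P297Z.Dg.Rg (Nf)

/-- the degree of a basis vector -/
def dgA (X : Spc) (A : Ix) : X.J → ℤ := fun _ => A.card

/-- the Koszul complex as a graded module -/
abbrev FF (X : Spc) : GMod X where
  M := Ix → X.R
  act := fun g => LinearMap.pi fun A =>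
    (chr (- -dgA X A) g • (X.act g).toLinearMap) ∘ₗ LinearMap.proj A
  act_smul := fun g r m => funext fun A => by
    show chr _ g • X.act g (r * m A) = X.act g r * chr _ g • X.act g (m A)
    rw [map_mul, mul_smul_comm]
  span := span_pi fun _ => span_twist X.span _

variable {X : Spc}

theorem FF_act (g : X.J → ℂˣ) (v : Ix → X.R) (A : Ix) :
    (FF X).act g v A = chr (dgA X A) g • X.act g (v A) := by
  rw [← neg_neg (dgA X A)]
  rfl

theorem mem_FF {γ : X.J → ℤ} {v : Ix → X.R} :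
    v ∈ (FF X).wt γ ↔ ∀ A, v A ∈ X.wt (γ - dgA X A) := by
  refine ⟨fun h A g => ?_, fun h g => funext fun A => ?_⟩
  · have h1 := congrFun (h g) A
    rw [FF_act, Pi.smul_apply] at h1
    show X.act g (v A) = _
    rw [chr_sub, mul_comm, mul_smul, ← h1, smul_smul, inv_mul_cancel₀ (chr_ne _ _), one_smul]
  · rw [FF_act, Spc.mem_wt.1 (h A) g, smul_smul, ← chr_add, add_sub_cancel, Pi.smul_apply]

theorem int_mul_mem {γ : X.J → ℤ} {r : X.R} (n : ℤ) (h : r ∈ X.wt γ) : (n : X.R) * r ∈ X.wt γ := by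
  rw [← zsmul_eq_mul]
  exact zsmul_mem h n

theorem ex_wt {γ : X.J → ℤ} {v : Ix → X.R} (h : v ∈ (FF X).wt γ) (i : Fin 4) :
    ex i v ∈ (FF X).wt (γ + fun _ => 1) := mem_FF.2 fun A => by
  rw [ex_apply]
  split_ifs with hi
  · have e : γ - dgA X (A.erase i) = (γ + fun _ => 1) - dgA X A := funext fun j => by
      have := Finset.card_erase_add_one hi
      simp only [dgA, Pi.sub_apply, Pi.add_apply]
      omega
    exact int_mul_mem _ (e ▸ mem_FF.1 h (A.erase i))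
  · exact zero_mem _

theorem ct_wt {γ γ' : X.J → ℤ} {v : Ix → X.R} (h : v ∈ (FF X).wt γ) {a : Fin 4 → X.R}
    (ha : ∀ i, a i ∈ X.wt γ') : ct a v ∈ (FF X).wt (γ' + γ - fun _ => 1) := mem_FF.2 fun A => by
  rw [ct_apply]
  refine Submodule.sum_mem _ fun i _ => ?_
  split_ifs with hi
  · exact zero_mem _
  · have e : γ' + (γ - dgA X (insert i A)) = (γ' + γ - fun _ => 1) - dgA X A := funext fun j => by
      have := Finset.card_insert_of_notMem hi
      simp only [dgA, Pi.sub_apply, Pi.add_apply]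
      omega
    exact e ▸ Spc.mul_mem (ha i) (int_mul_mem _ (mem_FF.1 h (insert i A)))

theorem pj_wt {γ γ' : X.J → ℤ} {v : Ix → X.R} (h : v ∈ (FF X).wt γ) {a b : Fin 4 → X.R}
    (ha : ∀ i, a i ∈ X.wt γ') (hb : ∀ i, b i ∈ X.wt γ') (i₁ i₂ : Fin 4) :
    pj i₁ i₂ a b v ∈ (FF X).wt (γ' + γ' + γ) := by
  have := ct_wt (ex_wt (ct_wt (ex_wt h i₂) hb) i₁) ha
  rwa [show (γ' + (γ' + (γ + fun _ => 1) - (fun _ => 1) + fun _ => 1) - fun _ => 1) = γ' + γ' + γ by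
    abel] at this

variable {K : Type} [Field K] [Algebra ℂ K]

/-- the data of the trace formula -/
structure Dat (X : Spc) (σ : X.R →ₐ[ℂ] X.R) (δ : X.R →ₐ[ℂ] K) (μ ν : X.R →ₗ[ℂ] K) (I : Ideal X.R)
    (ys : List X.R) (ξ : Fin 4 → X.R) : Prop where
  proj : X.IsProj
  dom : IsDomain X.R
  mem : ∀ f, f ∈ I ↔ ∀ g, δ (X.act g f) = 0
  sw_wt : ∀ (k : ℤ), ∀ f ∈ X.wt fun _ => k, σ f ∈ X.wt fun _ => k
  dl_sw : ∀ f, δ (σ f) = δ f
  sw_I : ∀ f ∈ I, σ f ∈ I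
  hys : ∀ y ∈ ys, ((y ∈ X.wt fun _ => 1) ∧ σ y = -y) ∧ δ y = 0
  xi : ∀ i, (ξ i ∈ X.wt fun _ => 1) ∧ σ (ξ i) = -ξ i ∧ δ (ξ i) = 0
  mu : ∀ f g, μ (f * g) = δ f * μ g + δ g * μ f
  nu : ∀ f g, ν (f * g) = δ f * ν g + δ g * ν f
  loc : ∀ z : X.Pt, (∀ y ∈ ys, z.1 y = 0) →
    (∃ (i₁ i₂ : Fin 4) (γ : X.J → ℤ) (r : X.R) (a b : Fin 4 → X.R),
      Nf ξ i₁ i₂ r a b ∧ z.1 r ≠ 0 ∧ r ∈ X.wt γ ∧ (∀ i, a i ∈ X.wt γ) ∧ (∀ i, b i ∈ X.wt γ) ∧
      μ (ξ i₁) * ν (ξ i₂) - ν (ξ i₁) * μ (ξ i₂) ≠ 0 ∧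
      ∀ α β, α * ξ i₁ + β * ξ i₂ = 0 →
        ∃ s c, z.1 s ≠ 0 ∧ s * α = c * ξ i₂ ∧ s * β = -(c * ξ i₁)) ∧
    ∀ f ∈ I, ∃ s, z.1 s ≠ 0 ∧ s * f ∈ Ideal.span (Set.range ξ)

/-- the vectors with coefficients in the ideal -/
def IF (I : Ideal X.R) : Submodule X.R (Ix → X.R) := Submodule.pi Set.univ fun _ => I

/-- the restriction -/
def dF (δ : X.R →ₐ[ℂ] K) : (Ix → X.R) →ₗ[ℂ] (Ix → K) := δ.toLinearMap.compLeft Ix

theorem dF_smul (δ : X.R →ₐ[ℂ] K) (r : X.R) (v : Ix → X.R) : dF δ (r • v) = δ r • dF δ v :=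
  funext fun A => map_mul δ r (v A)

/-- the vectors that restrict to cycles -/
def N1 (δ : X.R →ₐ[ℂ] K) (α β : Fin 4 → K) : Submodule X.R (Ix → X.R) where
  carrier := {v | ∀ g, ct α (dF δ ((FF X).act g v)) = 0 ∧ ct β (dF δ ((FF X).act g v)) = 0}
  add_mem' := fun {v w} hv hw g => by
    rw [map_add, map_add, map_add, map_add, (hv g).1, (hv g).2, (hw g).1, (hw g).2, add_zero]
    exact ⟨rfl, rfl⟩
  zero_mem' := fun g => by
    rw [map_zero, map_zero, map_zero, map_zero]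
    exact ⟨rfl, rfl⟩
  smul_mem' := fun c v hv g => by
    rw [(FF X).act_smul, dF_smul, map_smul, map_smul, (hv g).1, (hv g).2, smul_zero]
    exact ⟨rfl, rfl⟩

namespace Dat

variable {σ : X.R →ₐ[ℂ] X.R} {δ : X.R →ₐ[ℂ] K} {μ ν : X.R →ₗ[ℂ] K} {I : Ideal X.R}
  {ys : List X.R} {ξ : Fin 4 → X.R} (D : Dat X σ δ μ ν I ys ξ)

include D

theorem zero {f : X.R} (h : f ∈ I) : δ f = 0 := by
  have := (D.mem f).1 h 1
  rwa [X.act_one] at this

theorem mem_of {γ : X.J → ℤ} {f : X.R} (hf : f ∈ X.wt γ) (h : δ f = 0) : f ∈ I :=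
  (D.mem f).2 fun g => by rw [Spc.mem_wt.1 hf g, map_smul, h, smul_zero]

theorem stab_IF : (FF X).Stab (IF I) := fun g v hv A _ => by
  rw [FF_act]
  refine Submodule.smul_of_tower_mem I _ ((D.mem _).2 fun k => ?_)
  rw [← X.act_mul]
  exact (D.mem _).1 (hv A trivial) _

theorem hom : (FF X).IsHom (FF X) (ct ξ) := GMod.isHom_of_wt fun γ v hv => by
  have := ct_wt hv fun i => (D.xi i).1
  rwa [add_sub_cancel_left] at this

theorem anti (v : Ix → X.R) :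
    ct ξ (σ.toLinearMap.compLeft Ix v) = -σ.toLinearMap.compLeft Ix (ct ξ v) := by
  have h1 := ct_map σ ξ v
  have h2 : (fun i => σ (ξ i)) = fun i => -1 * ξ i := funext fun i => by
    rw [(D.xi i).2.1, neg_one_mul]
  rw [h2, ct_smul, neg_one_smul] at h1
  exact neg_eq_iff_eq_neg.1 h1.symm

theorem tau_wt (m : ℤ) : ∀ v ∈ (FF X).wt fun _ => m,
    σ.toLinearMap.compLeft Ix v ∈ (FF X).wt fun _ => m := fun v hv =>
  mem_FF.2 fun A => D.sw_wt (m - A.card) _ (mem_FF.1 hv A)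

theorem kil : Kil ys.length fun m =>
    trOn (σ.toLinearMap.compLeft Ix) (pc (FF X) (LinearMap.ker (ct ξ) ⊓ IF I) m) -
      trOn (σ.toLinearMap.compLeft Ix) (pc (FF X) (LinearMap.range (ct ξ)) m) := by
  haveI := D.dom
  refine hs (F := FF X) D.proj (σ := σ) (fun r v => funext fun A => map_mul σ r (v A)) D.tau_wt ys
    (fun y hy => (D.hys y hy).1) _ _ (D.hom.stab_ker.inf D.stab_IF) D.hom.stab_range
    (fun v hv => ⟨?_, fun A _ => D.sw_I _ (hv.2 A trivial)⟩) ?_ ?_ fun z hz v hv => ?_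
  · have : ct ξ v = 0 := hv.1
    show ct ξ _ = 0
    rw [D.anti, this, map_zero, neg_zero]
  · rintro _ ⟨v, rfl⟩
    exact ⟨-σ.toLinearMap.compLeft Ix v, by rw [map_neg, D.anti, neg_neg]⟩
  · rintro _ ⟨v, rfl⟩
    refine ⟨ct_ct ξ v, fun A _ => ?_⟩
    rw [ct_apply]
    refine Submodule.sum_mem _ fun i _ => ?_
    split_ifs
    · exact zero_mem _
    · exact Ideal.mul_mem_right _ _ (D.mem_of (D.xi i).1 (D.xi i).2.2)
  · obtain ⟨⟨i₁, i₂, γ, r, a, b, hN, hr, -, -, -, hd, hs⟩, hg⟩ := D.loc z hz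
    obtain ⟨s, y, h1, h2⟩ := Noe.loc hN hr (fun o => hd (by simp [o])) (fun o => hd (by simp [o]))
      hs hv.1 fun A => hg _ (hv.2 A trivial)
    exact ⟨s, h1, y, h2⟩

theorem lef (m : ℤ) : ∑ A : Ix, trOn σ.toLinearMap (X.wt fun _ => m - A.card) =
    Module.finrank ℂ ((pc (FF X) (LinearMap.ker (ct ξ)) m).map (dF δ)) +
    (trOn (σ.toLinearMap.compLeft Ix) (pc (FF X) (LinearMap.ker (ct ξ) ⊓ IF I) m) -
      trOn (σ.toLinearMap.compLeft Ix) (pc (FF X) (LinearMap.range (ct ξ)) m)) := by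
  haveI := D.proj.finite_wt (FF X) fun _ => m
  haveI := pc_fin (F := FF X) D.proj (LinearMap.ker (ct ξ)) m
  haveI : ∀ A : Ix, FiniteDimensional ℂ (X.wt fun _ => m - A.card) := fun A =>
    D.proj.finite_wt (GMod.one X) _
  have h0 := trOn_pi σ.toLinearMap (fun A : Ix => X.wt fun _ => m - A.card)
    fun A => D.sw_wt _
  have e0 : (Submodule.pi Set.univ fun A : Ix => X.wt fun _ => m - A.card) =
      (FF X).wt fun _ => m :=
    le_antisymm (fun v hv => mem_FF.2 fun A => hv A trivial) fun v hv A _ => mem_FF.1 hv A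
  have h1 := trOn_add (σ.toLinearMap.compLeft Ix) (σ.toLinearMap.compLeft Ix)
    ((ct ξ).restrictScalars ℂ) (c := -1) (neg_ne_zero.2 one_ne_zero) (P := (FF X).wt fun _ => m)
    (D.tau_wt m) fun v _ => by
      rw [neg_smul, one_smul]
      exact D.anti v
  have e1 : ((FF X).wt fun _ => m) ⊓ LinearMap.ker ((ct ξ).restrictScalars ℂ) =
      pc (FF X) (LinearMap.ker (ct ξ)) m :=
    le_antisymm (fun v hv => ⟨hv.2, hv.1⟩) fun v hv => ⟨hv.2, hv.1⟩
  have e2 : ((FF X).wt fun _ => m).map ((ct ξ).restrictScalars ℂ) =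
      pc (FF X) (LinearMap.range (ct ξ)) m := by
    refine le_antisymm ?_ ?_
    · rintro _ ⟨v, hv, rfl⟩
      exact ⟨⟨v, rfl⟩, D.hom.map_wt hv⟩
    · rintro _ ⟨⟨v, rfl⟩, hv⟩
      obtain ⟨w, h1, h2⟩ := D.hom.exists_preimage hv
      exact ⟨w, h1, h2⟩
  have h2 := trOn_add (σ.toLinearMap.compLeft Ix) LinearMap.id (dF δ) one_ne_zero
    (P := pc (FF X) (LinearMap.ker (ct ξ)) m) (fun v hv => ⟨by
      have : ct ξ v = 0 := hv.1
      show ct ξ _ = 0
      rw [D.anti, this, map_zero, neg_zero], D.tau_wt m v hv.2⟩) fun v _ => by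
      rw [one_smul]
      exact funext fun A => D.dl_sw _
  have e3 : pc (FF X) (LinearMap.ker (ct ξ)) m ⊓ LinearMap.ker (dF δ) =
      pc (FF X) (LinearMap.ker (ct ξ) ⊓ IF I) m :=
    le_antisymm (fun v hv => ⟨⟨hv.1.1, fun A _ => D.mem_of (mem_FF.1 hv.1.2 A) (congrFun hv.2 A)⟩,
      hv.1.2⟩) fun v hv => ⟨⟨hv.1.1, hv.2⟩, funext fun A => D.zero (hv.1.2 A trivial)⟩
  rw [e3, trOn_id] at h2
  rw [e1, e2, h2] at h1
  rw [← h0, e0, h1]
  ring

theorem lift : ∀ᶠ m : ℤ in atTop, ∀ v ∈ (FF X).wt fun _ => m,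
    ct (fun i => μ (ξ i)) (dF δ v) = 0 → ct (fun i => ν (ξ i)) (dF δ v) = 0 →
    dF δ v ∈ (pc (FF X) (LinearMap.ker (ct ξ)) m).map (dF δ) := by
  haveI := D.dom
  have sN : (FF X).Stab (N1 δ (fun i => μ (ξ i)) fun i => ν (ξ i)) := fun g v hv k => by
    rw [← (FF X).act_mul]
    exact hv _
  obtain ⟨k, hk⟩ := D.proj.zero_sub (FF X) sN (LinearMap.ker (ct ξ) ⊔ IF I) fun z v hv => by
    by_cases hz : ∀ y ∈ ys, z.1 y = 0
    swap
    · push Not at hz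
      obtain ⟨y, h1, h2⟩ := hz
      exact ⟨y, h2, Submodule.mem_sup_right fun A _ =>
        Ideal.mul_mem_right _ _ (D.mem_of (D.hys y h1).1.1 (D.hys y h1).2)⟩
    obtain ⟨⟨i₁, i₂, γ, r, a, b, hN, hr, r1, a1, b1, hd, -⟩, -⟩ := D.loc z hz
    have hr0 : r ≠ 0 := fun o => hr (by rw [o, map_zero])
    refine ⟨r * r, by rw [map_mul]; exact mul_ne_zero hr hr, ?_⟩
    refine (FF X).induction_sub sN (P := fun v => (r * r) • v ∈ LinearMap.ker (ct ξ) ⊔ IF I)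
      (by rw [smul_zero]; exact zero_mem _) (fun γ' v hv hw => ?_)
      (fun x y hx hy => by rw [smul_add]; exact add_mem hx hy) v hv
    have h1 := hv 1
    rw [(FF X).act_one] at h1
    have key : ∀ ρ : X.R →ₗ[ℂ] K, (∀ f g, ρ (f * g) = δ f * ρ g + δ g * ρ f) →
        ct (fun i => ρ (ξ i)) (dF δ v) = 0 →
        ρ (ξ i₁) • ct (fun i => δ (a i)) (dF δ v) + ρ (ξ i₂) • ct (fun i => δ (b i)) (dF δ v) = 0 := by
      intro ρ hρ h0
      have e : (fun i => δ r * ρ (ξ i)) = fun i => δ (a i) * ρ (ξ i₁) + δ (b i) * ρ (ξ i₂) :=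
        funext fun i => by
          have := congrArg ρ (hN.gen i)
          rwa [map_add, hρ, hρ, hρ, (D.xi i).2.2, (D.xi i₁).2.2, (D.xi i₂).2.2, zero_mul, zero_mul,
            zero_mul, add_zero, add_zero, add_zero] at this
      rw [← ct_lin, ← e, ct_smul, h0, smul_zero]
    have k1 := key μ D.mu h1.1
    have k2 := key ν D.nu h1.2
    have k3 : ct (fun i => δ (a i)) (dF δ v) = 0 := by
      refine (smul_eq_zero.1 ?_).resolve_left hd
      linear_combination (norm := module) ν (ξ i₂) • k1 - μ (ξ i₂) • k2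
    have k4 : ct (fun i => δ (b i)) (dF δ v) = 0 := by
      refine (smul_eq_zero.1 ?_).resolve_left hd
      linear_combination (norm := module) μ (ξ i₁) • k2 - ν (ξ i₁) • k1
    have k5 : dF δ (pj i₁ i₂ a b v) = (δ r * δ r) • dF δ v :=
      (pj_map δ v).trans (pj_of_zero (congrArg δ hN.a1) (congrArg δ hN.b2) k3 k4)
    have k6 : (r * r) • v - pj i₁ i₂ a b v ∈ (FF X).wt (γ + γ + γ') :=
      sub_mem (GMod.smul_mem_wt (M := FF X) (Spc.mul_mem r1 r1) hw) (pj_wt hw a1 b1 i₁ i₂)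
    refine Submodule.mem_sup.2 ⟨_, ct_pj hN hr0 v, (r * r) • v - pj i₁ i₂ a b v,
      fun A _ => D.mem_of (mem_FF.1 k6 A) ?_, add_sub_cancel _ _⟩
    have k7 : dF δ ((r * r) • v - pj i₁ i₂ a b v) = 0 := by
      rw [map_sub, k5, dF_smul, map_mul, sub_self]
    exact congrFun k7 A
  refine (ev_ge k).mono fun m hm v hv h1 h2 => ?_
  have h3 : v ∈ N1 δ (fun i => μ (ξ i)) fun i => ν (ξ i) := fun g => by
    rw [(FF X).mem_wt.1 hv g, map_smul, LinearMap.map_smul_of_tower, LinearMap.map_smul_of_tower,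
      h1, h2, smul_zero]
    exact ⟨rfl, rfl⟩
  obtain ⟨p, hp, q, hq, e⟩ := Submodule.mem_sup.1 (hk _ hm v h3 hv)
  refine ⟨(FF X).cmp (fun _ => m) p, ⟨(FF X).cmp_mem_stab D.hom.stab_ker hp _,
    (FF X).cmp_mem _ _⟩, ?_⟩
  have e1 := congrArg ((FF X).cmp fun _ => m) e
  rw [map_add, (FF X).cmp_of_mem hv] at e1
  have e2 : dF δ ((FF X).cmp (fun _ => m) q) = 0 :=
    funext fun A => D.zero ((FF X).cmp_mem_stab D.stab_IF hq _ A trivial)
  rw [← e1, map_add, e2, add_zero]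

theorem core (N : ℤ → Submodule ℂ K)
    (hs : ∀ᶠ k : ℤ in atTop, ∀ a ∈ N k, ∃ f ∈ X.wt fun _ => k, δ f = a) (c : ℤ → ℤ)
    (ht : ∀ᶠ k : ℤ in atTop, trOn σ.toLinearMap (X.wt fun _ => k) = c k) (Δ : ℤ)
    (hc : ∀ᶠ m : ℤ in atTop, ∑ A : Ix, c (m - A.card) ≤ Module.finrank ℂ
      ((Submodule.pi Set.univ fun A : Ix => N (m - A.card)) ⊓
        (LinearMap.ker (ct fun i => μ (ξ i))).restrictScalars ℂ ⊓
        (LinearMap.ker (ct fun i => ν (ξ i))).restrictScalars ℂ : Submodule ℂ (Ix → K)) + Δ) :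
    0 ≤ Δ := by
  have tt : ∀ A : Ix, Tendsto (fun m : ℤ => m - A.card) atTop atTop := fun A =>
    tendsto_atTop_add_const_right _ (-(A.card : ℤ)) tendsto_id
  refine D.kil.nonneg Δ (fun m => Module.finrank ℂ ((pc (FF X) (LinearMap.ker (ct ξ)) m).map
    (dF δ)) + Δ - ∑ A : Ix, c (m - A.card)) ?_
  filter_upwards [eventually_all.2 fun A => (tt A).eventually hs,
    eventually_all.2 fun A => (tt A).eventually ht, hc, D.lift] with m h1 h2 h3 h4
  haveI := pc_fin (F := FF X) D.proj (LinearMap.ker (ct ξ)) m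
  have h5 := D.lef m
  refine ⟨?_, ?_⟩
  · refine sub_nonneg.2 (h3.trans (add_le_add_left (Int.ofNat_le.2 (Submodule.finrank_mono ?_)) _))
    intro w hw
    choose v hv e using fun A => h1 A (w A) (hw.1.1 A trivial)
    have e1 : dF δ v = w := funext e
    rw [← e1] at hw ⊢
    exact h4 v (mem_FF.2 hv) hw.1.2 hw.2
  · rw [Finset.sum_congr rfl fun A _ => h2 A] at h5
    push_cast
    linear_combination -h5

end Dat

end Vale.Agent.P297Z.Sf.Noe
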