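import Vale.Agent.P297Y.Noe.Cl
import Vale.Agent.P297Z.Diag.SurfC
import Vale.Agent.P297Z.Diag.LD

/-! P297, formula of Noether: definitions and statements of the blocks. -/

set_option linter.all false

open scoped TensorProduct
open Filter

noncomputable section

namespace Vale.Agent.P297Z.Sf.Noe

open _root_.P297Z.Diff
open Vale.Agent.P297Z.Dg (fl pl)
open Vale.Agent.P297Z.Dg.Rg (Nf)

open Classical in
/-- the trace of `τ` on the subspace `P` -/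
def trOn {V : Type} [AddCommGroup V] [Module ℂ V] (τ : V →ₗ[ℂ] V) (P : Submodule ℂ V) : ℂ :=
  if h : ∀ v ∈ P, τ v ∈ P then LinearMap.trace ℂ P (τ.restrict h) else 0

variable {K : Type} [Field K] [Algebra ℂ K]

/-- the bihomogeneous coordinate ring of the product -/
abbrev BB (S : Surf K) : Type := S.ring ⊗[ℂ] S.ring

/-- the product -/
abbrev YY (S : Surf K) (h : S.All) : Spc := (S.spc h).prod (S.spc h)

/-- forget the degree -/
def dh (S : Surf K) : S.ring →ₐ[ℂ] K := SA.deh S 1 one_ne_zero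

/-- restriction to the diagonal -/
def dl (S : Surf K) : BB S →ₐ[ℂ] K := Algebra.TensorProduct.productMap (dh S) (dh S)

/-- normal derivative along the diagonal -/
def mu (S : Surf K) (δ : Derivation ℂ K K) : BB S →ₗ[ℂ] K :=
  LinearMap.mul' ℂ K ∘ₗ TensorProduct.map (dh S).toLinearMap (δ.toLinearMap ∘ₗ (dh S).toLinearMap)

/-- the swap -/
def sw (S : Surf K) : BB S →ₐ[ℂ] BB S := (Algebra.TensorProduct.comm ℂ S.ring S.ring).toAlgHom

/-- the antisymmetric forms of bidegree one -/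
def Lam (S : Surf K) : Submodule ℂ (BB S) := Submodule.span ℂ {f | ∃ l w : S.W, f = fl l w}

/-- the wedge product of the normal derivatives -/
def om (S : Surf K) (d : Fin 2 → Derivation ℂ K K) (f g : BB S) : K :=
  mu S (d 0) f * mu S (d 1) g - mu S (d 1) f * mu S (d 0) g

/-- the ideal of the diagonal -/
def II (S : Surf K) (h : S.All) : Ideal (YY S h).R where
  carrier := {f | ∀ g, dl S ((YY S h).act g f) = 0}
  add_mem' := fun {a b} ha hb g => by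
    rw [map_add]
    exact (map_add (dl S) _ _).trans (by rw [ha g, hb g, add_zero])
  zero_mem' := fun g => by
    rw [map_zero]
    exact map_zero (dl S)
  smul_mem' := fun c a ha g => by
    rw [smul_eq_mul, map_mul]
    exact (map_mul (dl S) _ _).trans (by rw [ha g, mul_zero])

/-- the cycles along the diagonal -/
def EE (S : Surf K) (α β : Fin 4 → K) (m : ℤ) : Submodule ℂ (Ix → K) :=
  (Submodule.pi Set.univ fun A : Ix => M (0 : Div S.W) (2 * (m - A.card))) ⊓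
    (LinearMap.ker (ct α)).restrictScalars ℂ ⊓ (LinearMap.ker (ct β)).restrictScalars ℂ

/-- `D` is the divisor of the form `a du` -/
def IsDivF {W : Submodule ℂ K} (a u : K) (D : Div W) : Prop :=
  ∀ C : Crv W, IsLeast {k : ℤ | ∃ δ, RegDer C.pl δ ∧ a * δ u ≠ 0 ∧ C.ord (a * δ u) = k} (D C)

/-! ### The blocks -/

/-- the inequality of Noether -/
def NOE : Prop := ForAll fun {K} _ _ S => S.All → ∀ (a u : K) (D : Div S.W), IsDivF a u D →
  inter S.kap S.kap + inter D (S.kap - D) ≤ 12 * chi (0 : Div S.W)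

/-- four elements are enough -/
def GEN : Prop := ForAll fun {K} _ _ S => S.All → ∀ (L : Type) [AddCommGroup L] [Module ℂ L]
  (N : Div S.W) (w : L →ₗ[ℂ] L →ₗ[ℂ] K), (∀ a b, w a b ∈ H0 N) →
  (∀ p : Pt S.W, ∃ a b, GenAt p N (w a b)) →
  ∃ ξ : Fin 4 → L, ∀ p : Pt S.W, ∃ i j, GenAt p N (w (ξ i) (ξ j))

/-- the count of the cycles along the diagonal -/
def CNT : Prop := ForAll fun {K} _ _ S => S.All → ∀ (a u : K) (D : Div S.W), IsDivF a u D →
  ∀ (d : Fin 2 → Derivation ℂ K K), Coord (pl S) d → ∀ α β : Fin 4 → K,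
  (∀ (C : Crv S.W) (δ : Derivation ℂ K K), RegDer C.pl δ → ∀ i,
    δ (S.x 1 / S.x 0) * α i + δ (S.x 2 / S.x 0) * β i ∈ secOn (· = C) ((2 : ℤ) • S.H)) →
  (∃ i j, α i * β j - β i * α j ≠ 0) →
  ∀ᶠ m : ℤ in atTop, ∑ A : Ix, chi ((m - A.card) • S.H) ≤ Module.finrank ℂ (EE S α β m) +
    (12 * chi (0 : Div S.W) - (inter S.kap S.kap + inter D (S.kap - D)))

/-- the elementary facts on the antisymmetric forms -/
structure Dia1 (S : Surf K) (h : S.All) : Prop where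
  wt : ∀ ξ ∈ Lam S, ξ ∈ (YY S h).wt fun _ => 1
  anti : ∀ ξ ∈ Lam S, sw S ξ = -ξ
  zero : ∀ ξ ∈ Lam S, dl S ξ = 0
  fin : (Lam S).FG
  dl_sw : ∀ f, dl S (sw S f) = dl S f
  sw_wt : ∀ (k : ℤ), ∀ f ∈ (YY S h).wt fun _ => k, sw S f ∈ (YY S h).wt fun _ => k
  sw_II : ∀ f ∈ II S h, sw S f ∈ II S h
  mu_mul : ∀ δ f g, mu S δ (f * g) = dl S f * mu S δ g + dl S g * mu S δ f
  reg : ∀ d : Fin 2 → Derivation ℂ K K, Coord (pl S) d → ∀ ξ ∈ Lam S,
    ∀ (C : Crv S.W) (δ : Derivation ℂ K K), RegDer C.pl δ →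
    δ (S.x 1 / S.x 0) * mu S (d 0) ξ + δ (S.x 2 / S.x 0) * mu S (d 1) ξ ∈
      secOn (· = C) ((2 : ℤ) • S.H)
  om_mem : ∀ d : Fin 2 → Derivation ℂ K K, Coord (pl S) d → ∀ ξ ∈ Lam S, ∀ ξ' ∈ Lam S,
    om S d ξ ξ' ∈ H0 (S.kap + (4 : ℤ) • S.H)
  om_gen : ∀ d : Fin 2 → Derivation ℂ K K, Coord (pl S) d → ∀ p : Pt S.W,
    ∃ ξ ∈ Lam S, ∃ ξ' ∈ Lam S, GenAt p (S.kap + (4 : ℤ) • S.H) (om S d ξ ξ')

/-- the pieces of large degree -/
structure Dia2 (S : Surf K) (h : S.All) : Prop where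
  surj : ∀ᶠ k : ℤ in atTop, ∀ a ∈ M (0 : Div S.W) (2 * k),
    ∃ f ∈ (YY S h).wt fun _ => k, dl S f = a
  tr : ∀ᶠ k : ℤ in atTop,
    trOn (V := (YY S h).R) (sw S).toLinearMap ((YY S h).wt fun _ => k) = (chi (k • S.H) : ℤ)

/-- the local structure along the diagonal -/
def Dia3 (S : Surf K) (h : S.All) : Prop :=
  ∀ d : Fin 2 → Derivation ℂ K K, Coord (pl S) d → ∀ ξ : Fin 4 → (YY S h).R, (∀ i, ξ i ∈ Lam S) →
  (∀ p : Pt S.W, ∃ i j, GenAt p (S.kap + (4 : ℤ) • S.H) (om S d (ξ i) (ξ j))) →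
  ∀ z : (YY S h).Pt, (∀ f ∈ Lam S, z.1 f = 0) →
  (∃ (i₁ i₂ : Fin 4) (γ : (YY S h).J → ℤ) (r : (YY S h).R) (a b : Fin 4 → (YY S h).R),
    Nf ξ i₁ i₂ r a b ∧ z.1 r ≠ 0 ∧ r ∈ (YY S h).wt γ ∧ (∀ i, a i ∈ (YY S h).wt γ) ∧
    (∀ i, b i ∈ (YY S h).wt γ) ∧ om S d (ξ i₁) (ξ i₂) ≠ 0 ∧
    ∀ α β, α * ξ i₁ + β * ξ i₂ = 0 →
      ∃ s c, z.1 s ≠ 0 ∧ s * α = c * ξ i₂ ∧ s * β = -(c * ξ i₁)) ∧
  ∀ f ∈ II S h, ∃ s, z.1 s ≠ 0 ∧ s * f ∈ Ideal.span (Set.range ξ)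

def DIA1 : Prop := ForAll fun S => ∀ h : S.All, Dia1 S h
def DIA2 : Prop := ForAll fun S => ∀ h : S.All, Dia2 S h
def DIA3 : Prop := ForAll fun S => ∀ h : S.All, Dia1 S h → Dia3 S h

end Vale.Agent.P297Z.Sf.Noe
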