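import Vale.Agent.P297Y.Noe.Defs

/-! P297, formula of Noether: the elementary facts on the antisymmetric forms. -/

set_option linter.all false

open scoped TensorProduct

noncomputable section

namespace Vale.Agent.P297Z.Sf.Noe

open _root_.P297Z.Diff
open Vale.Agent.P297Z.Dg (fl pl jc der_pl genAt_jc)

namespace D1

variable {K : Type} [Field K] [Algebra ℂ K] {S : Surf K}

theorem dh_lin (w : S.W) : dh S (S.lin w) = w := (SA.deh_lin one_ne_zero w).trans (div_one _)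

theorem dh_form {n : ℕ} {a : K} (ha : a ∈ S.W ^ n) : dh S (S.form n a ha) = a :=
  (SA.deh_form one_ne_zero ha).trans (by rw [one_pow, div_one])

theorem dl_tmul (x y : S.ring) : dl S (x ⊗ₜ y) = dh S x * dh S y := rfl

theorem mu_tmul (δ : Derivation ℂ K K) (x y : S.ring) :
    mu S δ (x ⊗ₜ y) = dh S x * δ (dh S y) := rfl

theorem sw_tmul (x y : S.ring) : sw S (x ⊗ₜ y) = y ⊗ₜ x := rfl

theorem fl_mem (l w : S.W) : fl l w ∈ Lam S := Submodule.subset_span ⟨l, w, rfl⟩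

theorem mu_fl (δ : Derivation ℂ K K) (l w : S.W) :
    mu S δ (fl l w) = l * δ w - w * δ l := by
  rw [fl, map_sub, mu_tmul, mu_tmul, dh_lin, dh_lin]

theorem lam_ind {P : BB S → Prop} (h0 : P 0) (ha : ∀ x y, P x → P y → P (x + y))
    (hs : ∀ (c : ℂ) x, P x → P (c • x)) (hf : ∀ l w : S.W, P (fl l w)) {ξ : BB S}
    (hξ : ξ ∈ Lam S) : P ξ := by
  induction hξ using Submodule.span_induction with
  | mem x hx =>
    obtain ⟨l, w, rfl⟩ := hx
    exact hf l w
  | zero => exact h0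
  | add x y _ _ hx hy => exact ha x y hx hy
  | smul c x _ hx => exact hs c x hx

theorem elim_const (k : ℤ) :
    (Sum.elim (fun _ : Unit => k) (fun _ : Unit => k) : Unit ⊕ Unit → ℤ) = fun _ => k :=
  funext fun j => by cases j <;> rfl

theorem tmul_wt (h : S.All) {k : ℤ} {x y : S.ring} (hx : x ∈ (S.spc h).wt fun _ => k)
    (hy : y ∈ (S.spc h).wt fun _ => k) : x ⊗ₜ[ℂ] y ∈ (YY S h).wt fun _ => k := by
  have h1 := Spc.tmul_mem (X := S.spc h) (Y := S.spc h) hx hy
  exact (congrArg (fun γ => x ⊗ₜ[ℂ] y ∈ (YY S h).wt γ) (elim_const k)).mp h1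

theorem dl_sw (f : BB S) : dl S (sw S f) = dl S f := by
  induction f using TensorProduct.induction_on with
  | zero => rw [map_zero]
  | add f g h h' => rw [map_add, map_add, map_add, h, h']
  | tmul x y => rw [sw_tmul, dl_tmul, dl_tmul, mul_comm]

theorem map_sw (a b : S.ring →ₐ[ℂ] S.ring) (f : BB S) :
    Algebra.TensorProduct.map a b (sw S f) = sw S (Algebra.TensorProduct.map b a f) := by
  induction f using TensorProduct.induction_on with
  | zero => simp only [map_zero]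
  | add f g h h' => simp only [map_add, h, h']
  | tmul x y => rfl

theorem sw_II (h : S.All) {g : Unit ⊕ Unit → ℂˣ} (f : BB S)
    (hf : dl S ((YY S h).act (g ∘ Sum.swap) f) = 0) : dl S ((YY S h).act g (sw S f)) = 0 := by
  have h1 : dl S (Algebra.TensorProduct.map (S.actR fun j => g (.inr j))
    (S.actR fun j => g (.inl j)) f) = 0 := hf
  change dl S (Algebra.TensorProduct.map (S.actR fun j => g (.inl j))
    (S.actR fun j => g (.inr j)) (sw S f)) = 0
  rw [map_sw, dl_sw, h1]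

theorem sw_wt (h : S.All) {k : ℤ} (f : BB S) (hf : f ∈ (YY S h).wt fun _ => k) :
    sw S f ∈ (YY S h).wt fun _ => k := by
  refine Spc.mem_wt.2 fun (g : Unit ⊕ Unit → ℂˣ) => ?_
  have h1 : Algebra.TensorProduct.map (S.actR fun j => g (.inr j))
    (S.actR fun j => g (.inl j)) f = chr (fun _ : Unit ⊕ Unit => k) (g ∘ Sum.swap) • f :=
    Spc.mem_wt.1 hf (g ∘ Sum.swap)
  have h2 : chr (fun _ : Unit ⊕ Unit => k) (g ∘ Sum.swap) = chr (fun _ : Unit ⊕ Unit => k) g := by
    simp [chr, mul_comm]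
  change Algebra.TensorProduct.map (S.actR fun j => g (.inl j))
    (S.actR fun j => g (.inr j)) (sw S f) = chr (fun _ : Unit ⊕ Unit => k) g • sw S f
  rw [map_sw, h1, map_smul, h2]

theorem mu_mul (δ : Derivation ℂ K K) (f g : BB S) :
    mu S δ (f * g) = dl S f * mu S δ g + dl S g * mu S δ f := by
  induction f using TensorProduct.induction_on with
  | zero => simp
  | add f f' h h' => simp only [add_mul, map_add, h, h']; ring
  | tmul a b =>
    induction g using TensorProduct.induction_on with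
    | zero => simp
    | add g g' h h' => simp only [mul_add, map_add, h, h']; ring
    | tmul a' b' =>
      simp only [Algebra.TensorProduct.tmul_mul_tmul, mu_tmul, dl_tmul, map_mul,
        Derivation.leibniz, smul_eq_mul]
      ring

theorem mu_pl {d : Fin 2 → Derivation ℂ K K} (hd : Coord (pl S) d) (δ : Derivation ℂ K K)
    (f : BB S) :
    mu S δ f = δ (S.x 1 / S.x 0) * mu S (d 0) f + δ (S.x 2 / S.x 0) * mu S (d 1) f := by
  induction f using TensorProduct.induction_on with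
  | zero => simp
  | add f f' h h' => simp only [map_add, h, h']; ring
  | tmul x y => rw [mu_tmul, mu_tmul, mu_tmul, der_pl hd δ (dh S y)]; ring

theorem mu_fl' (δ : Derivation ℂ K K) (l w : S.W) {u : K} (hu : u ≠ 0) :
    mu S δ (fl l w) = u ^ 2 * (l / u * δ (w / u) - w / u * δ (l / u)) := by
  rw [mu_fl]
  have e1 : (l : K) = u * (l / u) := by field_simp
  have e2 : (w : K) = u * (w / u) := by field_simp
  generalize (l / u : K) = x at e1
  generalize (w / u : K) = y at e2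
  rw [e1, e2, δ.leibniz, δ.leibniz]
  simp only [smul_eq_mul]
  ring

theorem mu_mem (h : S.All) {C : Crv S.W} {δ : Derivation ℂ K K} (hδ : RegDer C.pl δ) {ξ : BB S}
    (hξ : ξ ∈ Lam S) : mu S δ ξ ∈ secOn (· = C) ((2 : ℤ) • S.H) := by
  refine lam_ind (P := fun ξ => mu S δ ξ ∈ secOn (· = C) ((2 : ℤ) • S.H)) ?_ (fun x y hx hy => ?_)
    (fun c x hx => ?_) (fun l w => ?_) hξ
  · rw [map_zero]
    exact zero_mem _
  · rw [map_add]
    exact add_mem hx hy
  · rw [map_smul]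
    exact Submodule.smul_mem _ c hx
  · obtain ⟨u, hW, hu⟩ := C.exists_in
    rw [mu_fl' δ l w hu.1]
    have m1 := hu.2 l l.2
    have m2 := hu.2 w w.2
    have m3 := sub_mem (mul_mem m1 (hδ _ m2)) (mul_mem m2 (hδ _ m1))
    generalize (l / u * δ (w / u) - w / u * δ (l / u) : K) = x at m3
    by_cases o : x = 0
    · rw [o, mul_zero]
      exact zero_mem _
    refine Or.inr ?_
    rintro C rfl
    have h1 := Pl.ord_nonneg_of_mem _ m3
    have h2 := h.hyp_in C u hW hu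
    rw [Crv.ord, Pl.ord_mul _ (pow_ne_zero _ hu.1) o, Pl.ord_pow, Finsupp.smul_apply, h2,
      smul_eq_mul, mul_neg]
    unfold Crv.ord
    omega

theorem om_mem (h : S.All) {d : Fin 2 → Derivation ℂ K K} (hd : Coord (pl S) d) {ξ ξ' : BB S}
    (hξ : ξ ∈ Lam S) (hξ' : ξ' ∈ Lam S) : om S d ξ ξ' ∈ H0 (S.kap + (4 : ℤ) • S.H) := by
  by_cases o : om S d ξ ξ' = 0
  · exact Or.inl o
  refine Or.inr fun C _ => ?_
  obtain ⟨δ₁, δ₂, r1, r2, h2, h3⟩ := (h.least _ _ S.indep C).1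
  have h4 := sub_mem (mul_mem_secOn (mu_mem h r1 hξ) (mu_mem h r2 hξ'))
    (mul_mem_secOn (mu_mem h r2 hξ) (mu_mem h r1 hξ'))
  have h5 : mu S δ₁ ξ * mu S δ₂ ξ' - mu S δ₂ ξ * mu S δ₁ ξ' =
      wedge (S.x 1 / S.x 0) (S.x 2 / S.x 0) δ₁ δ₂ * om S d ξ ξ' := by
    rw [mu_pl hd δ₁ ξ, mu_pl hd δ₂ ξ, mu_pl hd δ₁ ξ', mu_pl hd δ₂ ξ', wedge, om]
    ring
  rw [h5] at h4
  have h7 := h4.resolve_left (mul_ne_zero h2 o) C rfl
  rw [Crv.ord, Pl.ord_mul _ h2 o, h3, Finsupp.add_apply, Finsupp.smul_apply, smul_eq_mul] at h7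
  rw [Finsupp.add_apply, Finsupp.smul_apply, smul_eq_mul]
  change 0 ≤ C.pl.ord _ + (canDiv _ _ _ C + _)
  omega

theorem om_gen (h : S.All) {d : Fin 2 → Derivation ℂ K K} (hd : Coord (pl S) d) (p : Pt S.W) :
    ∃ ξ ∈ Lam S, ∃ ξ' ∈ Lam S, GenAt p (S.kap + (4 : ℤ) • S.H) (om S d ξ ξ') := by
  obtain ⟨w, hW, hw⟩ := p.exists_in
  lift w to S.W using hW
  obtain ⟨l₁, l₂, hp⟩ := SA.exists_par h hw
  have h0 : (w : K) ≠ 0 := hw.1
  obtain ⟨j1, j2⟩ := genAt_jc h hd hp
  refine ⟨_, fl_mem l₁ w, _, fl_mem l₂ w, ?_⟩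
  have e : om S d (fl l₁ w) (fl l₂ w) = w ^ 4 * jc d (l₁ / w) (l₂ / w) := by
    rw [om, mu_fl' _ _ _ h0, mu_fl' _ _ _ h0, mu_fl' _ _ _ h0, mu_fl' _ _ _ h0, jc]
    simp only [div_self h0, Derivation.map_one_eq_zero]
    ring
  rw [e]
  refine ⟨mul_ne_zero (pow_ne_zero _ h0) j1, fun C hC => ?_⟩
  have h3 := j2 C hC
  have h4 := h.hyp_in C w w.2 (hC.crv_in hw)
  rw [Crv.ord, Pl.ord_mul _ (pow_ne_zero _ h0) j1, Pl.ord_pow, Finsupp.add_apply,
    Finsupp.smul_apply, h4, smul_eq_mul]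
  unfold Crv.ord at *
  omega

theorem lam_fg (S : Surf K) : (Lam S).FG := by
  have := S.model.fin
  have h1 : (LinearMap.range (TensorProduct.map S.linL S.linL)).FG := Submodule.fg_range _
  refine Submodule.FG.of_le (R := ℂ) (M := BB S) h1 (Submodule.span_le.2 ?_)
  rintro _ ⟨l, w, rfl⟩
  exact ⟨l ⊗ₜ w - w ⊗ₜ l, (map_sub _ _ _).trans rfl⟩

end D1

open D1

theorem dia1 : DIA1 := by
  intro K _ _ S h
  refine ⟨fun ξ hξ => ?_, fun ξ hξ => ?_, fun ξ hξ => ?_, lam_fg S, dl_sw, fun k f hf => ?_,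
    fun f hf g => ?_, mu_mul, fun d hd ξ hξ C δ hδ => mu_pl hd δ ξ ▸ mu_mem h hδ hξ,
    fun d hd ξ hξ ξ' hξ' => om_mem h hd hξ hξ', fun d hd p => om_gen h hd p⟩
  · exact lam_ind (P := fun ξ => ξ ∈ (YY S h).wt fun _ => 1) (zero_mem _)
      (fun _ _ => add_mem) (fun c _ => Submodule.smul_mem _ c)
      (fun l w => sub_mem (tmul_wt h (SA.lin_mem_wt h l) (SA.lin_mem_wt h w))
        (tmul_wt h (SA.lin_mem_wt h w) (SA.lin_mem_wt h l))) hξ
  · refine lam_ind (P := fun ξ => sw S ξ = -ξ) ?_ (fun x y hx hy => ?_) (fun c x hx => ?_)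
      (fun l w => ?_) hξ
    · exact (map_zero _).trans (neg_zero (G := BB S)).symm
    · rw [map_add, hx, hy]
      exact (neg_add x y).symm
    · rw [map_smul, hx]
      exact smul_neg c x
    · rw [fl, map_sub, sw_tmul, sw_tmul]
      exact (neg_sub _ _).symm
  · refine lam_ind (P := fun ξ => dl S ξ = 0) (map_zero _) (fun x y hx hy => ?_)
      (fun c x hx => ?_) (fun l w => ?_) hξ
    · rw [map_add, hx, hy, add_zero]
    · rw [map_smul, hx, smul_zero]
    · rw [fl, map_sub, dl_tmul, dl_tmul, mul_comm, sub_self]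
  · exact sw_wt h f hf
  · exact sw_II h f (hf (g ∘ Sum.swap))

end Vale.Agent.P297Z.Sf.Noe
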