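import Vale.Agent.P297Y.Noe.Defs

/-! P297, formula of Noether: the pieces of large degree. -/

set_option linter.all false

open scoped TensorProduct
open Filter

noncomputable section

namespace Vale.Agent.P297Z.Sf.Noe

theorem trOn_range {U V : Type} [AddCommGroup U] [Module ℂ U] [AddCommGroup V] [Module ℂ V]
    (ι : U →ₗ[ℂ] V) (hι : Function.Injective ι) (σ : U →ₗ[ℂ] U) (τ : V →ₗ[ℂ] V)
    (h : ∀ u, τ (ι u) = ι (σ u)) {P : Submodule ℂ V} (hP : LinearMap.range ι = P) :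
    trOn τ P = LinearMap.trace ℂ U σ := by
  subst hP
  have h1 : ∀ v ∈ LinearMap.range ι, τ v ∈ LinearMap.range ι := by
    rintro _ ⟨u, rfl⟩
    exact ⟨_, (h u).symm⟩
  rw [trOn, dif_pos h1, ← LinearMap.trace_conj' σ (LinearEquiv.ofInjective ι hι)]
  congr 1
  refine LinearMap.ext fun v => ?_
  obtain ⟨u, rfl⟩ := (LinearEquiv.ofInjective ι hι).surjective v
  rw [LinearEquiv.conj_apply_apply, LinearEquiv.symm_apply_apply]
  exact Subtype.ext (h u)

theorem trace_swap (V : Type) [AddCommGroup V] [Module ℂ V] [FiniteDimensional ℂ V] :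
    LinearMap.trace ℂ (V ⊗[ℂ] V) (TensorProduct.comm ℂ V V).toLinearMap =
      Module.finrank ℂ V := by
  classical
  let b := Module.finBasis ℂ V
  rw [LinearMap.trace_eq_matrix_trace ℂ (b.tensorProduct b), Matrix.trace, Fintype.sum_prod_type]
  simp [LinearMap.toMatrix_apply, Module.Basis.tensorProduct_apply,
    Module.Basis.tensorProduct_repr_tmul_apply, Finsupp.single_apply]

variable {K : Type} [Field K] [Algebra ℂ K] {S : Surf K}

theorem X_pow_le (S : Surf K) (N : ℕ) : S.X ^ N ≤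
    Submodule.span ℂ {b | ∃ e : Fin 3 → ℕ, ∑ i, e i = N ∧ b = ∏ i, S.x i ^ e i} := by
  induction N with
  | zero =>
    rw [pow_zero, Submodule.one_le]
    exact Submodule.subset_span ⟨0, by simp, by simp⟩
  | succ N ih =>
    rw [pow_succ]
    refine (mul_le_mul' ih le_rfl).trans ?_
    rw [Surf.X, Submodule.span_mul_span]
    refine Submodule.span_mono ?_
    rintro _ ⟨_, ⟨e, he, rfl⟩, _, ⟨j, rfl⟩, rfl⟩
    refine ⟨e + Pi.single j 1, by simp [Finset.sum_add_distrib, he], ?_⟩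
    fin_cases j <;> simp [Fin.prod_univ_three, pow_succ] <;> ring

theorem prod_mem_pow (S : Surf K) (e : Fin 3 → ℕ) (s : Finset (Fin 3)) :
    ∏ i ∈ s, S.x i ^ e i ∈ S.W ^ ∑ i ∈ s, e i := by
  induction s using Finset.induction_on with
  | empty => simp [Submodule.one_le.1 le_rfl]
  | insert a t ha ih =>
    rw [Finset.prod_insert ha, Finset.sum_insert ha]
    exact SA.mul_mem_pow (Submodule.pow_mem_pow _ (S.x_mem a) _) ih

theorem ev_mul_mem (h : S.All) {m : ℕ} {a : K} (ha : a ∈ M (0 : Div S.W) m) (i : Fin 3) :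
    ∀ᶠ k : ℕ in atTop, S.x i ^ k * a ∈ S.W ^ (m + k) := by
  have h1 : a / S.x i ^ m ∈ secIn (S.x i) (0 : Div S.W) := by
    by_cases h0 : a = 0
    · rw [h0, zero_div]
      exact zero_mem _
    refine Or.inr fun C hC => ?_
    have h1 := h.hyp_in C _ (S.x_mem i) hC
    have h3 := (mem_M'.1 ha).resolve_left h0 C
    simp only [Crv.ord, Surf.H] at h1 h3 ⊢
    rw [Pl.ord_div _ h0 (pow_ne_zero m (S.x_ne i)), Pl.ord_pow]
    have h4 : C.pl.ord (S.x i) = -hyp S.W C := by omega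
    rw [h4]
    linarith
  obtain ⟨n₀, hn⟩ := exists_pow_of_mem_chart (S.x_mem i) (S.x_ne i)
    ((h.sec_chart _ (S.x_mem i) (S.x_ne i) _).1 h1)
  filter_upwards [eventually_ge_atTop n₀] with k hk
  have h2 := hn (m + k) (by omega)
  rwa [pow_add (S.x i), ← mul_assoc, div_mul_cancel₀ _ (pow_ne_zero m (S.x_ne i)), mul_comm] at h2

theorem ev_M_eq (h : S.All) : ∀ᶠ n : ℕ in atTop, M (0 : Div S.W) n = S.W ^ n := by
  obtain ⟨h1, -, m₁, h3⟩ := h.fg 0
  obtain ⟨m, hm⟩ : ∃ m : ℕ, m₁ ≤ m := ⟨m₁.toNat, Int.self_le_toNat m₁⟩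
  have h4 : ∀ N : ℕ, M (0 : Div S.W) (m + N : ℕ) ≤ S.X ^ N * M (0 : Div S.W) m := by
    intro N
    induction N with
    | zero => simp
    | succ N ih =>
      rw [pow_succ', mul_assoc, ← add_assoc, Nat.cast_succ]
      exact (h3 _ (by omega)).trans (mul_le_mul' le_rfl ih)
  obtain ⟨s, hs⟩ := Module.Finite.iff_fg.1 (h1 m)
  obtain ⟨k₀, hk⟩ := eventually_atTop.1 ((eventually_all_finset s).2 fun a ha =>
    eventually_all.2 fun i => ev_mul_mem h (hs ▸ Submodule.subset_span ha) i)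
  filter_upwards [eventually_ge_atTop (m + 3 * k₀)] with n hn
  obtain ⟨N, rfl⟩ := Nat.exists_eq_add_of_le (show m ≤ n by omega)
  refine le_antisymm ((h4 N).trans ?_) fun a ha => SB.mem_M_pow S.model ha
  refine (mul_le_mul' (X_pow_le S N) hs.ge).trans ?_
  rw [Submodule.span_mul_span, Submodule.span_le]
  rintro _ ⟨_, ⟨e, he, rfl⟩, a, ha, rfl⟩
  obtain ⟨j, hj⟩ : ∃ j, k₀ ≤ e j := by
    by_contra o
    push Not at o
    have := o 0
    have := o 1
    have := o 2
    rw [Fin.sum_univ_three] at he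
    omega
  have h5 := SA.mul_mem_pow (prod_mem_pow S e (Finset.univ.erase j)) (hk _ hj a ha j)
  rw [← mul_assoc, Finset.prod_erase_mul _ _ (Finset.mem_univ j), add_left_comm,
    Finset.sum_erase_add _ _ (Finset.mem_univ j), he] at h5
  exact h5

theorem ev_int {P : ℤ → Prop} (h : ∀ᶠ n : ℕ in atTop, P n) : ∀ᶠ k : ℤ in atTop, P k := by
  obtain ⟨n₀, hn⟩ := eventually_atTop.1 h
  filter_upwards [eventually_ge_atTop (n₀ : ℤ)] with k hk
  lift k to ℕ using (by omega)
  exact hn k (by omega)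

theorem tmul_wt (h : S.All) {n : ℕ} {a b : K} (ha : a ∈ S.W ^ n) (hb : b ∈ S.W ^ n) :
    (S.form n a ha ⊗ₜ[ℂ] S.form n b hb : BB S) ∈ (YY S h).wt fun _ => (n : ℤ) := by
  have h1 := Spc.tmul_mem (SA.form_mem_wt h ha) (SA.form_mem_wt h hb)
  exact (funext fun j => by cases j <;> rfl :
    Sum.elim (fun _ : Unit => (n : ℤ)) (fun _ : Unit => (n : ℤ)) = fun _ => (n : ℤ)) ▸ h1

theorem dia2_surj (h : S.All) : ∀ᶠ k : ℤ in atTop, ∀ a ∈ M (0 : Div S.W) (2 * k),
    ∃ f ∈ (YY S h).wt fun _ => k, dl S f = a := by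
  refine ev_int ?_
  obtain ⟨n₀, hn⟩ := eventually_atTop.1 (ev_M_eq h)
  filter_upwards [eventually_ge_atTop n₀] with n hn' a ha
  have h1 : a ∈ S.W ^ n * S.W ^ n := by
    rw [← pow_add, ← hn _ (by omega)]
    rwa [Nat.cast_add, ← two_mul]
  refine Submodule.mul_induction_on h1 (fun b hb c hc => ⟨_, tmul_wt h hb hc, ?_⟩) ?_
  · rw [dl, Algebra.TensorProduct.productMap_apply_tmul, dh, SA.deh_form, SA.deh_form]
    simp
  · rintro _ _ ⟨f, hf, rfl⟩ ⟨g, hg, rfl⟩
    exact ⟨f + g, add_mem hf hg, map_add (dl S) f g⟩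

theorem formL_inj (S : Surf K) (n : ℕ) : Function.Injective (SA.formL S n) :=
  (injective_iff_map_eq_zero _).2 fun a ha => Subtype.ext ((SA.form_eq_zero a.2).1 ha)

/-- the forms of bidegree `(n, n)` -/
def emb (h : S.All) (n : ℕ) :
    (S.W ^ n : Submodule ℂ K) ⊗[ℂ] (S.W ^ n : Submodule ℂ K) →ₗ[ℂ] (YY S h).R :=
  TensorProduct.map (SA.formL S n) (SA.formL S n)

theorem range_emb (h : S.All) (n : ℕ) :
    LinearMap.range (emb h n) = (YY S h).wt fun _ => (n : ℤ) := by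
  refine le_antisymm ?_ fun f hf => ?_
  · rintro _ ⟨u, rfl⟩
    induction u using TensorProduct.induction_on with
    | zero => rw [map_zero]; exact zero_mem _
    | tmul a b => exact tmul_wt h a.2 b.2
    | add x y hx hy => rw [map_add]; exact add_mem hx hy
  · have k : ∀ x ∈ (S.spc h).wt fun _ => (n : ℤ), ∃ a, SA.formL S n a = x := by
      intro x hx
      rcases (SA.mem_wt h).1 hx with rfl | ⟨n', a, ha, e, rfl⟩
      · exact ⟨0, map_zero _⟩
      · obtain rfl : n = n' := by exact_mod_cast e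
        exact ⟨⟨a, ha⟩, rfl⟩
    refine Dg.prod_wt_ind (P := fun f => f ∈ LinearMap.range (emb h n)) (zero_mem _)
      (fun x y => add_mem) (fun x hx y hy => ?_) hf
    obtain ⟨a, rfl⟩ := k x hx
    obtain ⟨b, rfl⟩ := k y hy
    exact ⟨a ⊗ₜ b, rfl⟩

theorem dia2_tr (h : S.All) : ∀ᶠ k : ℤ in atTop,
    trOn (V := (YY S h).R) (sw S).toLinearMap ((YY S h).wt fun _ => k) = (chi (k • S.H) : ℤ) := by
  refine ev_int ?_
  obtain ⟨m₀, hm⟩ := h.large 0
  filter_upwards [ev_M_eq h, eventually_ge_atTop m₀.toNat] with n hn hn'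
  have h1 := hm n (by omega)
  rw [h0_eq, zero_add, hn] at h1
  have : FiniteDimensional ℂ (S.W ^ n : Submodule ℂ K) := hn ▸ (h.fg 0).1 n
  rw [← h1, Int.cast_natCast, ← trace_swap]
  have h2 : Function.Injective (emb h n) :=
    TensorProduct.map_injective_of_flat_flat _ _ (formL_inj S n) (formL_inj S n)
  refine trOn_range (U := (S.W ^ n : Submodule ℂ K) ⊗[ℂ] (S.W ^ n : Submodule ℂ K))
    (V := (YY S h).R) (emb h n) h2 _ _ (fun u => ?_) (range_emb h n)
  induction u using TensorProduct.induction_on with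
  | zero =>
    simp only [map_zero]
    exact map_zero (sw S)
  | tmul a b => rfl
  | add x y hx hy =>
    simp only [map_add, ← hx, ← hy]
    exact map_add (sw S) _ _

theorem dia2 : DIA2 := fun _ _ _ _ h => ⟨dia2_surj h, dia2_tr h⟩

end Vale.Agent.P297Z.Sf.Noe
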