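import Vale.Agent.P297Y.Noe.Defs

/-! P297, formula of Noether: the local structure along the diagonal. -/

set_option linter.all false

open scoped TensorProduct

noncomputable section

namespace Vale.Agent.P297Z.Sf.Noe

open _root_.P297Z.Diff
open Vale.Agent.P297Z.Dg (fl pl Pair gg eqS ID fl_ID)
open Vale.Agent.P297Z.Dg.Rg (Nf pair_syz)
open SA

namespace D3

theorem alg {R : Type} [CommRing R] [IsDomain R] [Algebra ℂ R] {z : R →ₐ[ℂ] ℂ} {u v r : R}
    {ξ A B : Fin 4 → R} {i j : Fin 4} (hp : Pair z u v) (hr : z r ≠ 0)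
    (e : ∀ k, r * ξ k = A k * u + B k * v) (h : z (A i * B j - A j * B i) ≠ 0) :
    Nf ξ i j (A i * B j - A j * B i) (fun k => A k * B j - A j * B k)
      (fun k => A i * B k - A k * B i) ∧
    (∀ α β, α * ξ i + β * ξ j = 0 → ∃ s c, z s ≠ 0 ∧ s * α = c * ξ j ∧ s * β = -(c * ξ i)) ∧
    ∀ a b, (A i * B j - A j * B i) * (a * u + b * v) ∈ Ideal.span (Set.range ξ) := by
  refine ⟨⟨?_, fun k => ?_, rfl, sub_self _, sub_self _, rfl⟩, fun α β h1 => ?_, fun a b => ?_⟩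
  · rintro rfl
    exact h (by rw [sub_self, map_zero])
  · refine mul_left_cancel₀ (a := r) (fun o => hr (by rw [o, map_zero])) ?_
    linear_combination (A i * B j - A j * B i) * e k - (A k * B j - A j * B k) * e i -
      (A i * B k - A k * B i) * e j
  · obtain ⟨s, c, h2, h3, h4⟩ := pair_syz hp (a := α * A i + β * A j) (b := α * B i + β * B j)
      (by linear_combination r * h1 - α * e i - β * e j)
    exact ⟨s * (A i * B j - A j * B i), c * r, ev_mul h2 h,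
      by linear_combination B j * h3 - A j * h4 - c * e j,
      by linear_combination A i * h4 - B i * h3 + c * e i⟩
  · have h1 := add_mem
      (Ideal.mul_mem_left _ ((a * B j - b * A j) * r) (Ideal.subset_span (Set.mem_range_self i)))
      (Ideal.mul_mem_left _ ((b * A i - a * B i) * r)
        (Ideal.subset_span (s := Set.range ξ) (Set.mem_range_self j)))
    convert h1 using 1
    linear_combination -(a * B j - b * A j) * e i - (b * A i - a * B i) * e j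

theorem homog {X : Spc} {z : X.R →ₐ[ℂ] ℂ} {δ : X.J → ℤ} {u v r : X.R} {ξ : Fin 4 → X.R}
    (hu : u ∈ X.wt δ) (hv : v ∈ X.wt δ) (hξ : ∀ k, ξ k ∈ X.wt δ) (hr : z r ≠ 0)
    (e : ∀ k, ∃ a b, r * ξ k = a * u + b * v) :
    ∃ (γ : X.J → ℤ) (r : X.R) (A B : Fin 4 → X.R), z r ≠ 0 ∧ r ∈ X.wt γ ∧ (∀ k, A k ∈ X.wt γ) ∧
      (∀ k, B k ∈ X.wt γ) ∧ ∀ k, r * ξ k = A k * u + B k * v := by
  choose A B e using e
  obtain ⟨s, hs, -⟩ := exists_sum_cmp X.span r
  rw [← hs, map_sum] at hr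
  obtain ⟨γ, -, h1⟩ := Finset.exists_ne_zero_of_sum_ne_zero hr
  have key : ∀ f ∈ X.wt δ, ∀ a, X.cmp (δ + γ) (a * f) = X.cmp γ a * f := fun f hf a => by
    rw [mul_comm, mul_comm _ f]
    exact (GMod.one X).cmp_smul hf γ a
  refine ⟨γ, _, fun k => X.cmp γ (A k), fun k => X.cmp γ (B k), h1, cmp_mem _ _ _,
    fun k => cmp_mem _ _ _, fun k => cmp_mem _ _ _, fun k => ?_⟩
  have h2 := congrArg (X.cmp (δ + γ)) (e k)
  rwa [map_add, key _ (hξ k), key _ hu, key _ hv] at h2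

variable {K : Type} [Field K] [Algebra ℂ K] {S : Surf K} {h : S.All}

theorem one {y : (S.spc h).Pt} {p : Pt S.W} {w : S.W} (hy : S.Over h y p) (hw : p.In w)
    {γ : Unit → ℤ} {x : S.ring} (hx : x ∈ (S.spc h).wt γ) :
    dh S x = dehAt hw x * (w : K) ^ γ () ∧
      hom y x = hom y (S.lin w) ^ γ () * ev h p (dehAt hw x) := by
  rcases (SA.mem_wt h).1 hx with rfl | ⟨n, a, ha, e, rfl⟩
  · simp
  · rw [e, zpow_natCast, zpow_natCast, coe_dehAt, deh_form, dh, deh_form, one_pow, div_one,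
      div_mul_cancel₀ _ (pow_ne_zero n hw.1)]
    exact ⟨rfl, over_val hy hw ha⟩

/-- the values at a point of the diagonal -/
theorem dict {z : (YY S h).Pt} (hz : z ∈ eqS (Mor.fst _ _) (Mor.snd _ _)) :
    ∃ (p : Pt S.W) (w : S.W), p.In w ∧ ∀ γ, ∀ f ∈ (YY S h).wt γ, ∃ t ∈ p.ring,
      dl S f = t * (w : K) ^ (γ (.inl ()) + γ (.inr ())) ∧ (z.1 f = 0 ↔ p.Van t) := by
  obtain ⟨p, h1⟩ := exists_over ((Mor.fst _ _).onPt z)
  have h2 := over_of_orb h1 hz
  obtain ⟨w, hW, hw⟩ := p.exists_in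
  lift w to S.W using hW
  refine ⟨p, w, hw, fun γ f hf => ?_⟩
  let ψ : BB S →ₐ[ℂ] p.ring := Algebra.TensorProduct.productMap (dehAt hw) (dehAt hw)
  let y : BB S →ₐ[ℂ] ℂ := z.1
  let c := hom ((Mor.fst _ _).onPt z) (S.lin w) ^ γ (.inl ()) *
    hom ((Mor.snd _ _).onPt z) (S.lin w) ^ γ (.inr ())
  have hc : c ≠ 0 := mul_ne_zero (zpow_ne_zero _ ((over_in h1 w).1 hw))
    (zpow_ne_zero _ ((over_in h2 w).1 hw))
  let P : BB S → Prop := fun f => dl S f = ψ f * (w : K) ^ (γ (.inl ()) + γ (.inr ())) ∧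
    y f = c * ev h p (ψ f)
  have k0 : P 0 := by simp [P]
  have k1 : ∀ a b, P a → P b → P (a + b) := fun a b ha hb => by
    simp only [P, map_add, ha.1, ha.2, hb.1, hb.2, Subalgebra.coe_add, add_mul, mul_add, and_self]
  have k2 : ∀ a : S.ring, a ∈ (S.spc h).wt (fun j => γ (.inl j)) →
      ∀ b : S.ring, b ∈ (S.spc h).wt (fun j => γ (.inr j)) → P (a ⊗ₜ b) := fun a ha b hb => by
    obtain ⟨a1, a2⟩ := one h1 hw ha
    obtain ⟨b1, b2⟩ := one h2 hw hb
    have e : y (a ⊗ₜ b) = hom ((Mor.fst _ _).onPt z) a * hom ((Mor.snd _ _).onPt z) b := by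
      change _ = y (a ⊗ₜ 1) * y (1 ⊗ₜ b)
      rw [← map_mul, Algebra.TensorProduct.tmul_mul_tmul, mul_one, one_mul]
    simp only [P, ψ, c, dl, Algebra.TensorProduct.productMap_apply_tmul, e, a1, a2, b1, b2,
      map_mul, MulMemClass.coe_mul, zpow_add₀ hw.1]
    exact ⟨by ring, by ring⟩
  obtain ⟨k3, k4⟩ := Dg.prod_wt_ind (X := S.spc h) (Y := S.spc h) (P := P) k0 k1 k2 hf
  refine ⟨ψ f, (ψ f).2, k3, Iff.trans ?_ (ev_eq_zero h (ψ f))⟩
  change y f = 0 ↔ _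
  rw [k4, mul_eq_zero, or_iff_right hc]

theorem II_le {f : (YY S h).R} (hf : f ∈ II S h) : f ∈ ID h := fun z hz => by
  obtain ⟨p, w, hw, h1⟩ := dict hz
  refine (GMod.one (YY S h)).induction_sub (N := II S h) (P := fun f => z.1 f = 0)
    (fun g a ha k => ((YY S h).act_mul k g a ▸ ha (k * g) :)) (map_zero z.1) (fun γ a h2 h3 => ?_)
    (fun a b ha hb => (map_add z.1 a b).trans ((congrArg₂ _ ha hb).trans (add_zero 0))) f hf
  obtain ⟨t, -, h4, h5⟩ := h1 γ a h3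
  have h6 : dl S a = 0 := ((YY S h).act_one a ▸ h2 1 :)
  rw [h6, eq_comm, mul_eq_zero, or_iff_left (zpow_ne_zero _ hw.1)] at h4
  exact h5.2 (h4 ▸ p.van_zero)

theorem Lam_le {f : BB S} (hf : f ∈ Lam S) : f ∈ ID h :=
  (Submodule.span_le (p := (ID h).restrictScalars ℂ)).2
    (by rintro _ ⟨l, w, rfl⟩; exact fl_ID h l w) hf

theorem om_eq (H : Dia1 S h) (d : Fin 2 → Derivation ℂ K K) {u v r : BB S} {ξ A B : Fin 4 → BB S}
    (hu : u ∈ Lam S) (hv : v ∈ Lam S) (hξ : ∀ k, ξ k ∈ Lam S)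
    (e : ∀ k, r * ξ k = A k * u + B k * v) (i j : Fin 4) :
    dl S r * dl S r * om S d (ξ i) (ξ j) = dl S (A i * B j - A j * B i) * om S d u v := by
  have h1 : ∀ δ k, dl S r * mu S δ (ξ k) = dl S (A k) * mu S δ u + dl S (B k) * mu S δ v :=
    fun δ k => by
      have h2 := congrArg (mu S δ) (e k)
      rw [map_add, H.mu_mul, H.mu_mul, H.mu_mul, H.zero _ hu, H.zero _ hv, H.zero _ (hξ k)] at h2
      linear_combination h2
  simp only [om, map_sub, map_mul]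
  linear_combination (dl S r * mu S (d 1) (ξ j)) * h1 (d 0) i +
    (dl S (A i) * mu S (d 0) u + dl S (B i) * mu S (d 0) v) * h1 (d 1) j -
    (dl S r * mu S (d 0) (ξ j)) * h1 (d 1) i -
    (dl S (A i) * mu S (d 1) u + dl S (B i) * mu S (d 1) v) * h1 (d 0) j

end D3

open D3

theorem dia3 : DIA3 := by
  intro K _ _ S h H d hd ξ hξ hg z hz
  have := S.model.fin
  have := S.ring_ft
  have : IsDomain (YY S h).R := Dim.isDomain_tensor (k := ℂ) (A := S.ring) (B := S.ring)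
  have hS := Dg.sm_basis h (Module.finBasis ℂ S.W)
  have hT := hS.trans_diag
  have hL : ∀ k, gg (fun i => S.lin (Module.finBasis ℂ S.W i)) (Mor.fst (S.spc h) (S.spc h))
      (Mor.snd _ _) k ∈ Lam S := fun k => Submodule.subset_span ⟨_, _,
    congrArg₂ (· - ·) (Mor.fst_mul_snd _ _) (Mor.fst_mul_snd _ _)⟩
  have hz' := (hS.mem_eqS z).2 fun k => hz _ (hL k)
  obtain ⟨k₁, k₂, hp, r₀, hr₀, h1⟩ := (hT.lci z).resolve_left fun ⟨k, hk⟩ => hk (hz _ (hL k))
  have hu := hL k₁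
  have hv := hL k₂
  have hG := hT.gen z
  generalize gg (fun i => S.lin (Module.finBasis ℂ S.W i)) (Mor.fst (S.spc h) (S.spc h))
    (Mor.snd _ _) = G at *
  generalize G k₁ = u at *
  generalize G k₂ = v at *
  have h2 : ∀ f : (YY S h).R, f ∈ ID h → ∃ s, z.1 s ≠ 0 ∧ ∃ a b, s * f = a * u + b * v :=
    fun f hf => by
      obtain ⟨s, h3, h4⟩ := hG f hf
      have h5 : Ideal.span (Set.range G) ≤ (Ideal.span {u, v}).colon {r₀} := Ideal.span_le.2 (by
        rintro _ ⟨k, rfl⟩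
        obtain ⟨a, b, e⟩ := h1 k
        exact Submodule.mem_colon_singleton.2 (Ideal.mem_span_pair.2
          ⟨a, b, e.symm.trans (mul_comm _ _)⟩))
      obtain ⟨a, b, e⟩ := Ideal.mem_span_pair.1 (Submodule.mem_colon_singleton.1 (h5 h4))
      exact ⟨s * r₀, ev_mul h3 hr₀, a, b, by rw [e, smul_eq_mul]; ring⟩
  obtain ⟨r₁, hr₁, h3⟩ := unif (z := z.1) (P := fun k s => ∃ a b, s * ξ k = a * u + b * v)
    (fun k => h2 _ (Lam_le (hξ k))) fun k s t ⟨a, b, e⟩ =>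
      ⟨t * a, t * b, by linear_combination t * e⟩
  obtain ⟨γ, r, A, B, hr, w1, w2, w3, e⟩ :=
    homog (H.wt _ hu) (H.wt _ hv) (fun k => H.wt _ (hξ k)) hr₁ h3
  have w4 : ∀ i j, A i * B j - A j * B i ∈ (YY S h).wt (γ + γ) := fun i j =>
    sub_mem (Spc.mul_mem (w2 i) (w3 j)) (Spc.mul_mem (w2 j) (w3 i))
  obtain ⟨p, w, hw, h4⟩ := dict hz'
  obtain ⟨i, j, hij⟩ := hg p
  have h5 : z.1 (A i * B j - A j * B i) ≠ 0 := fun o => by
    obtain ⟨t, -, a1, a2⟩ := h4 _ _ (w4 i j)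
    obtain ⟨t₀, b0, b1, b2⟩ := h4 _ _ w1
    have a3 := Sl.quot_mem S h w.2 hw hij (H.om_mem d hd _ hu _ hv)
    have a4 := om_eq H d hu hv hξ e i j
    rw [sub_self, zpow_zero, mul_one] at a3
    have a5 := (a2.1 o).mul_right a3
    have a6 : t * (om S d u v / om S d (ξ i) (ξ j)) = t₀ * t₀ := by
      have a7 : dl S (A i * B j - A j * B i) = t * ((w : K) ^ (γ (.inl ()) + γ (.inr ())) *
          w ^ (γ (.inl ()) + γ (.inr ()))) := by
        rw [← zpow_add₀ hw.1, add_add_add_comm]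
        exact a1
      have a8 := zpow_ne_zero (γ (.inl ()) + γ (.inr ())) hw.1
      have a9 := a4.trans (congrArg (· * om S d u v) a7)
      rw [← mul_div_assoc, div_eq_iff hij.1]
      refine mul_left_cancel₀ (mul_ne_zero a8 a8) ?_
      linear_combination -a9 + om S d (ξ i) (ξ j) * (dl S r +
        t₀ * (w : K) ^ (γ (.inl ()) + γ (.inr ()))) * b1
    exact hr (b2.2 ((Pt.van_or b0 b0 (a6 ▸ a5)).elim id id))
  obtain ⟨c1, c2, c3⟩ := alg hp hr e h5
  refine ⟨⟨i, j, γ + γ, _, _, _, c1, h5, w4 i j, fun k => w4 k j, fun k => w4 i k, hij.1, c2⟩,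
    fun f hf => ?_⟩
  obtain ⟨s, a1, a, b, a2⟩ := h2 f (II_le hf)
  exact ⟨_ * s, ev_mul h5 a1, by rw [mul_assoc, a2]; exact c3 a b⟩

end Vale.Agent.P297Z.Sf.Noe
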