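import Vale.Agent.P297Y.Noe.Defs

/-! P297, formula of Noether: four elements are enough. -/

set_option linter.all false

noncomputable section

namespace Vale.Agent.P297Z.Sf.Noe

namespace Gen

variable {V L P Q : Type} [AddCommGroup V] [Module ℂ V] [AddCommGroup L] [Module ℂ L]

theorem avoid {F : Set P} {G : Set Q} (hF : F.Finite) (hG : G.Finite) (U : P → Submodule ℂ L)
    (U' : Q → Submodule ℂ L) (h : ∀ i ∈ F, ∃ a, a ∉ U i) (h' : ∀ i ∈ G, ∃ a, a ∉ U' i) :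
    ∃ a, (∀ i ∈ F, a ∉ U i) ∧ ∀ i ∈ G, a ∉ U' i := by
  have := hF.to_subtype
  have := hG.to_subtype
  obtain ⟨a, ha⟩ := Submodule.exists_forall_notMem_of_forall_ne_top
    (Sum.elim (fun i : F => U i) fun i : G => U' i) (by
      rintro (i | i) e
      · obtain ⟨a, ha⟩ := h i i.2
        exact ha (e.ge trivial)
      · obtain ⟨a, ha⟩ := h' i i.2
        exact ha (e.ge trivial))
  exact ⟨a, fun i hi => ha (Sum.inl ⟨i, hi⟩), fun i hi => ha (Sum.inr ⟨i, hi⟩)⟩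

/-- points `P`, curves `Q`, the sections which vanish at a point or along a curve -/
structure Dat (On : P → Q → Prop) (Y : P → Submodule ℂ V) (Z : Q → Submodule ℂ V) : Prop where
  iff : ∀ p s, s ∉ Y p ↔ s ≠ 0 ∧ ∀ C, On p C → s ∉ Z C
  fin : ∀ s, s ≠ 0 → {C | s ∈ Z C}.Finite
  meet : ∀ C C', C ≠ C' → {p | On p C ∧ On p C'}.Finite
  pt : ∀ C, ∃ p, On p C

variable {On : P → Q → Prop} {Y : P → Submodule ℂ V} {Z : Q → Submodule ℂ V}

/-- a linear system without fixed curve has finitely many base points -/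
theorem Dat.bs (h : Dat On Y Z) (f : L →ₗ[ℂ] V) {a : L} (ha : f a ≠ 0)
    (hf : ∀ C, ∃ b, f b ∉ Z C) : {p | ∀ b, f b ∈ Y p}.Finite := by
  obtain ⟨b, hb, hb'⟩ := avoid (h.fin _ ha) (Set.finite_singleton ()) (fun C => (Z C).comap f)
    (fun _ => LinearMap.ker f) (fun C _ => hf C) fun _ _ => ⟨a, ha⟩
  have h0 : f b ≠ 0 := hb' () rfl
  refine ((h.fin _ ha).biUnion fun C hC => (h.fin _ h0).biUnion fun C' hC' =>
    h.meet C C' fun e => hb C hC (e ▸ hC')).subset fun p hp => ?_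
  have key : ∀ c, f c ≠ 0 → ∃ C, On p C ∧ f c ∈ Z C := fun c hc => by
    by_contra hn
    exact (h.iff p _).2 ⟨hc, fun C h1 h2 => hn ⟨C, h1, h2⟩⟩ (hp c)
  obtain ⟨C, c1, c2⟩ := key a ha
  obtain ⟨C', c1', c2'⟩ := key b h0
  exact Set.mem_biUnion c2 (Set.mem_biUnion c2' ⟨c1, c1'⟩)

/-- the radical of a bilinear map modulo a subspace -/
def rad (w : L →ₗ[ℂ] L →ₗ[ℂ] V) (U : Submodule ℂ V) : Submodule ℂ L :=
  ⨅ b, U.comap (w.flip b)

theorem mem_rad {w : L →ₗ[ℂ] L →ₗ[ℂ] V} {U : Submodule ℂ V} {a : L} :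
    a ∈ rad w U ↔ ∀ b, w a b ∈ U := Submodule.mem_iInf _

theorem Dat.four (h : Dat On Y Z) (p₀ : P) (w : L →ₗ[ℂ] L →ₗ[ℂ] V)
    (hw : ∀ p, ∃ a b, w a b ∉ Y p) : ∃ ξ : Fin 4 → L, ∀ p, ∃ i j, w (ξ i) (ξ j) ∉ Y p := by
  have rY : ∀ p, ∃ a, a ∉ rad w (Y p) := fun p => by
    obtain ⟨a, b, hab⟩ := hw p
    exact ⟨a, fun o => hab (mem_rad.1 o b)⟩
  have rZ : ∀ C, ∃ a, a ∉ rad w (Z C) := fun C => by
    obtain ⟨p, hp⟩ := h.pt C
    obtain ⟨a, b, hab⟩ := hw p
    exact ⟨a, fun o => ((h.iff p _).1 hab).2 C hp (mem_rad.1 o b)⟩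
  obtain ⟨x₀, b₀, h₀⟩ := hw p₀
  replace h₀ := ((h.iff _ _).1 h₀).1
  obtain ⟨x₁, h₁, h₁'⟩ := avoid (h.fin _ h₀) (Set.finite_singleton ()) (fun C => rad w (Z C))
    (fun _ => LinearMap.ker (w x₀)) (fun C _ => rZ C) fun _ _ => ⟨b₀, h₀⟩
  have n₁ : w x₀ x₁ ≠ 0 := h₁' () rfl
  have k₁ : ∀ C, ∃ b, w x₀ b ∉ Z C ∨ w x₁ b ∉ Z C := fun C => by
    by_cases e : w x₀ b₀ ∈ Z C
    · obtain ⟨b, hb⟩ := not_forall.1 (mt mem_rad.2 (h₁ C e))
      exact ⟨b, Or.inr hb⟩
    · exact ⟨b₀, Or.inl e⟩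
  have f₁ := h.bs ((w x₀).coprod (w x₁)) (a := (x₁, 0)) (by simpa using n₁) fun C => by
    obtain ⟨b, hb | hb⟩ := k₁ C
    exacts [⟨(b, 0), by simpa using hb⟩, ⟨(0, b), by simpa using hb⟩]
  obtain ⟨x₂, h₂, h₂'⟩ := avoid (h.fin _ n₁) f₁
    (fun C => (Z C).comap (w x₀) ⊓ (Z C).comap (w x₁)) (fun p => rad w (Y p))
    (fun C _ => (k₁ C).imp fun b hb o => hb.elim (fun e => e o.1) fun e => e o.2) fun p _ => rY p
  have f₂ := h.bs (Fintype.linearCombination ℂ ![w x₀ x₁, w x₀ x₂, w x₁ x₂])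
    (a := Pi.single 0 1) (by simpa using n₁) fun C => by
      by_contra hn
      push Not at hn
      exact h₂ C (by simpa using hn (Pi.single 0 1))
        ⟨by simpa using hn (Pi.single 1 1), by simpa using hn (Pi.single 2 1)⟩
  obtain ⟨x₃, h₃, -⟩ := avoid f₂ (Set.finite_empty (α := Unit))
    (fun p => (Y p).comap (w x₀) ⊓ (Y p).comap (w x₁) ⊓ (Y p).comap (w x₂)) (fun _ => ⊥)
    (fun p _ => by
      by_contra hn
      push Not at hn
      exact h₂' p (fun b => (Y p).add_mem (hn b.1).1.1 (hn b.2).1.2)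
        (mem_rad.2 fun b => (hn b).2)) fun _ o => o.elim
  refine ⟨![x₀, x₁, x₂, x₃], fun p => ?_⟩
  by_contra hn
  push Not at hn
  refine h₃ p (fun c => ?_) ⟨⟨hn 0 3, hn 1 3⟩, hn 2 3⟩
  rw [Fintype.linearCombination_apply, Fin.sum_univ_three]
  exact (Y p).add_mem ((Y p).add_mem ((Y p).smul_mem _ (hn 0 1)) ((Y p).smul_mem _ (hn 0 2)))
    ((Y p).smul_mem _ (hn 1 2))

variable {K : Type} [Field K] [Algebra ℂ K] {S : Surf K} {N : Div S.W}

/-- the multiples of `g` by functions which vanish at `p` -/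
def vn (p : Pt S.W) (g : K) : Submodule ℂ K where
  carrier := {s | p.Van (s / g)}
  zero_mem' := by simpa using p.van_zero
  add_mem' := fun {a b} ha hb => by
    show p.Van ((a + b) / g)
    rw [add_div]
    exact ha.add hb
  smul_mem' := fun c a ha => by
    show p.Van (c • a / g)
    rw [smul_div_assoc]
    exact ha.smul c

theorem notMem_vn (h : S.All) {p : Pt S.W} {g s : K} (hg : GenAt p N g) (hs : s ∈ H0 N) :
    s ∉ vn p g ↔ GenAt p N s := by
  show ¬ p.Van (s / g) ↔ _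
  by_cases h0 : s = 0
  · exact iff_of_false (fun o => o (by simpa [h0] using p.van_zero)) fun o => o.1 h0
  have n := div_ne_zero h0 hg.1
  have e : ∀ C, p.On C → C.ord (s / g) = C.ord s + N C := fun C hC => by
    have h1 := hg.2 C hC
    have h2 := Pl.ord_div C.pl h0 hg.1
    unfold Crv.ord at *
    omega
  have hm : s / g ∈ p.ring := (h.normal p _).1 (Or.inr fun C hC => by
    rw [e C hC]
    simpa using hs.resolve_left h0 C trivial)
  refine ⟨fun o => ⟨h0, fun C hC => ?_⟩, fun o hv => hv.2.resolve_left n ?_⟩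
  · rw [← e C hC]
    exact Pl.ord_unit _ (hC _ hm) (hC _ (by_contra fun k => o ⟨hm, Or.inr k⟩))
  · refine (h.normal p _).1 (Or.inr fun C hC => ?_)
    have h1 := e C hC
    have h2 := o.2 C hC
    have h3 := Pl.ord_inv C.pl (s / g)
    unfold Crv.ord at *
    simp only [Finsupp.coe_zero, Pi.zero_apply]
    omega

theorem notMem_sec {C : Crv S.W} {s : K} (hs : s ∈ H0 N) (h0 : s ≠ 0) :
    s ∉ secOn (· = C) (N - Finsupp.single C 1) ↔ C.ord s + N C = 0 := by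
  have h1 := hs.resolve_left h0 C trivial
  simp only [mem_secOn, h0, false_or, forall_eq, Finsupp.sub_apply, Finsupp.single_eq_same]
  omega

end Gen

open Gen

theorem gen : GEN := by
  intro K _ _ S h L _ _ N w hw hp
  choose g hg using fun p => h.gen p N
  have hd : Dat (V := H0 N) Pt.On (fun p => (vn p (g p)).comap (H0 N).subtype)
      fun C => (secOn (· = C) (N - Finsupp.single C 1)).comap (H0 N).subtype := by
    refine ⟨fun p s => (notMem_vn h (hg p) s.2).trans ?_, fun s hs => ?_, h.fin_meet, fun C => ?_⟩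
    · exact and_congr (not_congr ZeroMemClass.coe_eq_zero) Iff.rfl |>.trans
        (and_congr_right fun h0 => forall₂_congr fun C _ =>
          (notMem_sec s.2 (mt ZeroMemClass.coe_eq_zero.1 h0)).symm)
    · refine ((h.fin_div s).union N.finite_support).subset fun C hC => ?_
      by_contra hn
      simp only [Set.mem_union, Function.mem_support, not_or, not_not] at hn
      exact (notMem_sec s.2 (mt ZeroMemClass.coe_eq_zero.1 hs)).2 (by rw [hn.1, hn.2]; rfl) hC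
    · obtain ⟨i, hi⟩ := h.crv_cover C
      obtain ⟨p, hp⟩ := (h.inf_pt C _ (S.x_mem i) hi).nonempty
      exact ⟨p, hp.1⟩
  obtain ⟨p₀⟩ := h.pt_ne
  obtain ⟨ξ, hξ⟩ := hd.four p₀ (LinearMap.mk₂ ℂ (fun a b => (⟨w a b, hw a b⟩ : H0 N))
    (fun _ _ _ => Subtype.ext (by simp)) (fun _ _ _ => Subtype.ext (by simp))
    (fun _ _ _ => Subtype.ext (by simp)) fun _ _ _ => Subtype.ext (by simp))
    fun p => (hp p).imp fun a => Exists.imp fun b o => (notMem_vn h (hg p) (hw a b)).2 o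
  exact ⟨ξ, fun p => (hξ p).imp fun i => Exists.imp fun j o => (notMem_vn h (hg p) (hw _ _)).1 o⟩

end Vale.Agent.P297Z.Sf.Noe
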