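import Vale.Agent.P297Y.Noe.Main
import Vale.Agent.P297Y.Noe.Gen
import Vale.Agent.P297Y.Noe.Cnt
import Vale.Agent.P297Y.Noe.Dia1
import Vale.Agent.P297Y.Noe.Dia2
import Vale.Agent.P297Y.Noe.Dia3

/-! P297, formula of Noether: the inequality. -/

namespace Vale.Agent.P297Z.Sf.Noe

/-- the inequality of Noether -/
theorem noe : NOE := noe_of gen cnt dia1 dia2 dia3

end Vale.Agent.P297Z.Sf.Noe
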