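import Vale.Agent.P297Y.Noe.Tr

/-! P297, formula of Noether: the traces on modules that live outside the fixed locus. -/

set_option linter.all false

open Filter

noncomputable section

namespace Vale.Agent.P297Z.Sf.Noe

variable {X : Spc} {F : GMod X}

/-- the piece of degree `m` -/
def pc (F : GMod X) (P : Submodule X.R F.M) (m : ℤ) : Submodule ℂ F.M :=
  P.restrictScalars ℂ ⊓ F.wt fun _ => m

theorem mem_pc {P : Submodule X.R F.M} {m : ℤ} {v : F.M} :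
    v ∈ pc F P m ↔ v ∈ P ∧ v ∈ F.wt fun _ => m := Iff.rfl

theorem pc_fin (hX : X.IsProj) (P : Submodule X.R F.M) (m : ℤ) : FiniteDimensional ℂ (pc F P m) :=
  haveI := hX.finite_wt F fun _ => m
  Submodule.finiteDimensional_of_le inf_le_right

theorem ev_ge (k : X.J → ℤ) : ∀ᶠ m : ℤ in atTop, k ≤ fun _ => m :=
  eventually_all.2 fun j => eventually_ge_atTop (k j)

theorem act_smul_wt {y : X.R} {γ : X.J → ℤ} (hy : y ∈ X.wt γ) (g : X.J → ℂˣ) (v : F.M) :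
    F.act g (y • v) = chr γ g • y • F.act g v := by
  rw [F.act_smul, Spc.mem_wt.1 hy g, smul_assoc]

theorem step (hX : X.IsProj) {τ : F.M →ₗ[ℂ] F.M}
    (hw : ∀ m : ℤ, ∀ v ∈ F.wt fun _ => m, τ v ∈ F.wt fun _ => m) {y : X.R}
    (hy : y ∈ X.wt fun _ => 1) (hτ : ∀ v, τ (y • v) = -(y • τ v)) {P Q : Submodule X.R F.M}
    (sP : F.Stab P) (sQ : F.Stab Q) (tP : ∀ v ∈ P, τ v ∈ P) (tQ : ∀ v ∈ Q, τ v ∈ Q) (m : ℤ) :
    trOn τ (pc F (Q ⊔ P.map (LinearMap.lsmul X.R F.M y)) (m + 1)) - trOn τ (pc F Q (m + 1)) =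
      trOn τ (pc F (P ⊓ Q.comap (LinearMap.lsmul X.R F.M y)) m) - trOn τ (pc F P m) := by
  set Q' := Q.restrictScalars ℂ with hQ'
  set τ' := Q'.mapQ Q' τ tQ with hτ'
  set L : F.M →ₗ[ℂ] F.M := (LinearMap.lsmul X.R F.M y).restrictScalars ℂ with hL
  haveI := pc_fin hX (Q ⊔ P.map (LinearMap.lsmul X.R F.M y)) (m + 1)
  haveI := pc_fin hX P m
  have hd : ((fun _ => 1) + fun _ => m : X.J → ℤ) = fun _ => m + 1 := funext fun _ => add_comm _ _
  have h1 := trOn_add τ τ' Q'.mkQ one_ne_zero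
    (P := pc F (Q ⊔ P.map (LinearMap.lsmul X.R F.M y)) (m + 1)) (fun v hv => ⟨by
      obtain ⟨q, hq, _, ⟨w, hw', rfl⟩, rfl⟩ := Submodule.mem_sup.1 hv.1
      refine Submodule.mem_sup.2 ⟨τ q, tQ q hq, _, ⟨-τ w, P.neg_mem (tP w hw'), rfl⟩, ?_⟩
      rw [map_add, LinearMap.lsmul_apply, LinearMap.lsmul_apply, hτ, smul_neg], hw _ v hv.2⟩)
    fun v _ => by rw [one_smul]; rfl
  have h2 := trOn_add τ τ' (Q'.mkQ ∘ₗ L) (c := -1) (neg_ne_zero.2 one_ne_zero) (P := pc F P m)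
    (fun v hv => ⟨tP v hv.1, hw _ v hv.2⟩) fun v _ => by
      show Q'.mkQ (y • τ v) = (-1 : ℂ) • Q'.mkQ (τ (y • v))
      rw [hτ, map_neg, neg_smul, one_smul, neg_neg]
  have e1 : pc F (Q ⊔ P.map (LinearMap.lsmul X.R F.M y)) (m + 1) ⊓ LinearMap.ker Q'.mkQ =
      pc F Q (m + 1) := by
    rw [Submodule.ker_mkQ]
    exact le_antisymm (fun v hv => ⟨hv.2, hv.1.2⟩) fun v hv =>
      ⟨⟨Submodule.mem_sup_left hv.1, hv.2⟩, hv.1⟩
  have e2 : pc F P m ⊓ LinearMap.ker (Q'.mkQ ∘ₗ L) =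
      pc F (P ⊓ Q.comap (LinearMap.lsmul X.R F.M y)) m := by
    rw [LinearMap.ker_comp, Submodule.ker_mkQ]
    exact le_antisymm (fun v hv => ⟨⟨hv.1.1, hv.2⟩, hv.1.2⟩) fun v hv => ⟨⟨hv.1.1, hv.2⟩, hv.1.2⟩
  have e3 : (pc F (Q ⊔ P.map (LinearMap.lsmul X.R F.M y)) (m + 1)).map Q'.mkQ =
      (pc F P m).map (Q'.mkQ ∘ₗ L) := by
    refine le_antisymm ?_ ?_
    · rintro _ ⟨v, hv, rfl⟩
      obtain ⟨q, hq, _, ⟨w, hw', rfl⟩, e⟩ := Submodule.mem_sup.1 hv.1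
      refine ⟨F.cmp (fun _ => m) w, ⟨F.cmp_mem_stab sP hw' _, F.cmp_mem _ _⟩, ?_⟩
      have e4 := congrArg (F.cmp fun _ => m + 1) e
      rw [map_add, F.cmp_of_mem hv.2, LinearMap.lsmul_apply, ← hd, F.cmp_smul hy] at e4
      show Q'.mkQ (y • _) = _
      rw [← e4, map_add, (Submodule.Quotient.mk_eq_zero Q').2 (F.cmp_mem_stab sQ hq _) |>
        (Q'.mkQ_apply _).trans, zero_add]
    · rintro _ ⟨v, hv, rfl⟩
      exact ⟨y • v, ⟨Submodule.mem_sup_right ⟨v, hv.1, rfl⟩, hd ▸ GMod.smul_mem_wt hy hv.2⟩, rfl⟩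
  rw [e1, e3] at h1
  rw [e2] at h2
  rw [h1, h2]
  ring

theorem hs (hX : X.IsProj) {σ : X.R →ₐ[ℂ] X.R} {τ : F.M →ₗ[ℂ] F.M}
    (hτ : ∀ r v, τ (r • v) = σ r • τ v)
    (hw : ∀ m : ℤ, ∀ v ∈ F.wt fun _ => m, τ v ∈ F.wt fun _ => m) (ys : List X.R) :
    (∀ y ∈ ys, (y ∈ X.wt fun _ => 1) ∧ σ y = -y) → ∀ P Q : Submodule X.R F.M, F.Stab P →
    F.Stab Q → (∀ v ∈ P, τ v ∈ P) → (∀ v ∈ Q, τ v ∈ Q) → Q ≤ P →
    (∀ z : X.Pt, (∀ y ∈ ys, z.1 y = 0) → ∀ v ∈ P, ∃ r, z.1 r ≠ 0 ∧ r • v ∈ Q) →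
    Kil ys.length fun m => trOn τ (pc F P m) - trOn τ (pc F Q m) := by
  induction ys with
  | nil =>
    intro _ P Q sP _ _ _ hle h
    obtain ⟨k, hk⟩ := hX.zero_sub F sP Q fun z => h z fun _ o => nomatch o
    refine (ev_ge k).mono fun m hm => ?_
    have : pc F P m = pc F Q m :=
      le_antisymm (fun v hv => ⟨hk _ hm v hv.1 hv.2, hv.2⟩) fun v hv => ⟨hle hv.1, hv.2⟩
    show trOn τ (pc F P m) - trOn τ (pc F Q m) = 0
    rw [this, sub_self]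
  | cons y ys ih =>
    intro hy P Q sP sQ tP tQ hle h
    obtain ⟨hy1, hy2⟩ := hy y List.mem_cons_self
    have hy' := fun w hw => hy w (List.mem_cons_of_mem y hw)
    have hτ' : ∀ v, τ (y • v) = -(y • τ v) := fun v => by rw [hτ, hy2, neg_smul]
    have k1 := ih hy' P (Q ⊔ P.map (LinearMap.lsmul X.R F.M y)) sP (sQ.sup (by
        rintro g _ ⟨v, hv, rfl⟩
        refine ⟨chr (fun _ => 1) g • F.act g v, P.smul_of_tower_mem _ (sP g v hv), ?_⟩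
        rw [LinearMap.lsmul_apply, LinearMap.lsmul_apply, act_smul_wt hy1, smul_comm])) tP (by
        intro v hv
        obtain ⟨q, hq, _, ⟨w, hw', rfl⟩, rfl⟩ := Submodule.mem_sup.1 hv
        refine Submodule.mem_sup.2 ⟨τ q, tQ q hq, _, ⟨-τ w, P.neg_mem (tP w hw'), rfl⟩, ?_⟩
        rw [map_add, LinearMap.lsmul_apply, LinearMap.lsmul_apply, hτ', smul_neg])
      (sup_le hle (by
        rintro _ ⟨v, hv, rfl⟩
        exact P.smul_mem y hv)) fun z hz v hv => by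
        by_cases e : z.1 y = 0
        · obtain ⟨r, h1, h2⟩ := h z (List.forall_mem_cons.2 ⟨e, hz⟩) v hv
          exact ⟨r, h1, Submodule.mem_sup_left h2⟩
        · exact ⟨y, e, Submodule.mem_sup_right ⟨v, hv, rfl⟩⟩
    have k2 := ih hy' (P ⊓ Q.comap (LinearMap.lsmul X.R F.M y)) Q (sP.inf (by
        intro g v hv
        have h1 := Q.smul_of_tower_mem (chr (fun _ => 1) g)⁻¹ (sQ g _ hv)
        rw [LinearMap.lsmul_apply, act_smul_wt hy1, smul_smul, inv_mul_cancel₀ (chr_ne _ _),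
          one_smul] at h1
        exact h1)) sQ (fun v hv => ⟨tP v hv.1, by
        have h1 := Q.neg_mem (tQ _ hv.2)
        rw [LinearMap.lsmul_apply, hτ', neg_neg] at h1
        exact h1⟩) tQ (fun v hv => ⟨hle hv, Q.smul_mem y hv⟩) fun z hz v hv => by
        by_cases e : z.1 y = 0
        · exact h z (List.forall_mem_cons.2 ⟨e, hz⟩) v hv.1
        · exact ⟨y, e, hv.2⟩
    refine Kil.congr (c := ys.length) (k1.shift.add k2) (Eventually.of_forall fun m => ?_)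
    have := step hX hw hy1 hτ' sP sQ tP tQ m
    linear_combination -this

end Vale.Agent.P297Z.Sf.Noe
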