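import Vale.Agent.P297Y.Noe.Core
import Vale.Agent.P297Z.Dim.Fib
import Vale.Agent.P297Z.K.Proj

/-! P297, formula of Noether: the blocks give the inequality. -/

set_option linter.all false

open Filter

noncomputable section

namespace Vale.Agent.P297Z.Sf.Noe

open _root_.P297Z.Diff
open Vale.Agent.P297Z.Dg (fl pl)

variable {K : Type} [Field K] [Algebra ℂ K]

theorem pick (h1 : GEN) {S : Surf K} {h : S.All} (E : Dia1 S h) {d : Fin 2 → Derivation ℂ K K}
    (hd : Coord (pl S) d) : ∃ ξ : Fin 4 → BB S, (∀ i, ξ i ∈ Lam S) ∧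
      ∀ p : Pt S.W, ∃ i j, GenAt p (S.kap + (4 : ℤ) • S.H) (om S d (ξ i) (ξ j)) := by
  let φ : ((S.W × S.W) →₀ ℂ) →ₗ[ℂ] BB S := Finsupp.linearCombination ℂ fun p => fl p.1 p.2
  have e : LinearMap.range φ = Lam S := by
    rw [Finsupp.range_linearCombination]
    exact congrArg _ (Set.ext fun f => ⟨fun ⟨p, o⟩ => ⟨p.1, p.2, o.symm⟩,
      fun ⟨l, w, o⟩ => ⟨(l, w), o.symm⟩⟩)
  have m : ∀ a, φ a ∈ Lam S := fun a => e ▸ LinearMap.mem_range_self φ a
  obtain ⟨ξ, hξ⟩ := h1 K S h ((S.W × S.W) →₀ ℂ) (S.kap + (4 : ℤ) • S.H)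
    (LinearMap.mk₂ ℂ (fun a b => om S d (φ a) (φ b))
      (fun a a' b => by simp only [om, map_add]; ring)
      (fun c a b => by simp only [om, map_smul, Algebra.smul_def]; ring)
      (fun a b b' => by simp only [om, map_add]; ring)
      (fun c a b => by simp only [om, map_smul, Algebra.smul_def]; ring))
    (fun a b => E.om_mem d hd _ (m a) _ (m b)) fun p => by
      obtain ⟨x, hx, y, hy, o⟩ := E.om_gen d hd p
      rw [← e] at hx hy
      obtain ⟨a, rfl⟩ := hx
      obtain ⟨b, rfl⟩ := hy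
      exact ⟨a, b, o⟩
  exact ⟨fun i => φ (ξ i), fun i => m _, hξ⟩

theorem noe_of (h1 : GEN) (h2 : CNT) (h3 : DIA1) (h4 : DIA2) (h5 : DIA3) : NOE := by
  intro K _ _ S h a u D hD
  have E := h3 K S h
  obtain ⟨d, hd⟩ := Dg.exists_pl S
  obtain ⟨ξ, hξ, hg⟩ := pick h1 E hd
  obtain ⟨T, hT⟩ := E.fin
  have mT : ∀ y ∈ T.toList, y ∈ Lam S := fun y hy =>
    hT ▸ Submodule.subset_span (Finset.mem_toList.1 hy)
  have := S.ring_ft
  have D0 : Dat (YY S h) (sw S) (dl S) (mu S (d 0)) (mu S (d 1)) (II S h) T.toList ξ :=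
    { proj := (SA.isProj h).prod (SA.isProj h)
      dom := Dim.isDomain_tensor (k := ℂ) (A := S.ring) (B := S.ring)
      mem := fun f => Iff.rfl
      sw_wt := E.sw_wt
      dl_sw := E.dl_sw
      sw_I := E.sw_II
      hys := fun y hy => ⟨⟨E.wt y (mT y hy), E.anti y (mT y hy)⟩, E.zero y (mT y hy)⟩
      xi := fun i => ⟨E.wt _ (hξ i), E.anti _ (hξ i), E.zero _ (hξ i)⟩
      mu := E.mu_mul _
      nu := E.mu_mul _
      loc := fun z hz => h5 K S h E d hd ξ hξ hg z fun f hf => by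
        rw [← hT] at hf
        induction hf using Submodule.span_induction with
        | mem x hx => exact hz x (Finset.mem_toList.2 hx)
        | zero => exact map_zero z.1
        | add x y _ _ hx hy => exact (map_add z.1 x y).trans ((congrArg₂ (· + ·) hx hy).trans (add_zero 0))
        | smul c x _ hx => exact (map_smul z.1 c x).trans ((congrArg (c • ·) hx).trans (smul_zero c)) }
  obtain ⟨p⟩ := h.pt_ne
  obtain ⟨i, j, o, -⟩ := hg p
  exact sub_nonneg.1 (D0.core (fun k => M (0 : Div S.W) (2 * k)) (h4 K S h).surj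
    (fun k => chi (k • S.H)) (h4 K S h).tr _
    (h2 K S h a u D hD d hd _ _ (fun C δ hδ i => E.reg d hd _ (hξ i) C δ hδ) ⟨i, j, o⟩))

end Vale.Agent.P297Z.Sf.Noe
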