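import Vale.Agent.P297Y.Noe.Defs

/-! P297, formula of Noether: traces. -/

set_option linter.all false

open Filter

noncomputable section

namespace Vale.Agent.P297Z.Sf.Noe

section ses

variable {A B C : Type} [AddCommGroup A] [Module ℂ A] [AddCommGroup B] [Module ℂ B]
  [AddCommGroup C] [Module ℂ C] [FiniteDimensional ℂ A] [FiniteDimensional ℂ B]
  [FiniteDimensional ℂ C]

theorem trace_ses (i : A →ₗ[ℂ] B) (p : B →ₗ[ℂ] C) (hi : Function.Injective i)
    (hp : Function.Surjective p) (h0 : ∀ a, p (i a) = 0) (hex : ∀ b, p b = 0 → ∃ a, i a = b)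
    (fA : A →ₗ[ℂ] A) (fB : B →ₗ[ℂ] B) (fC : C →ₗ[ℂ] C) (h1 : ∀ a, fB (i a) = i (fA a))
    (h2 : ∀ b, p (fB b) = fC (p b)) :
    LinearMap.trace ℂ B fB = LinearMap.trace ℂ A fA + LinearMap.trace ℂ C fC := by
  obtain ⟨s, hs⟩ := p.exists_rightInverse_of_surjective (LinearMap.range_eq_top.2 hp)
  obtain ⟨l, hl⟩ := i.exists_leftInverse_of_injective (LinearMap.ker_eq_bot.2 hi)
  have hs' : ∀ c, p (s c) = c := fun c => LinearMap.congr_fun hs c
  have hl' : ∀ a, l (i a) = a := fun a => LinearMap.congr_fun hl a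
  set t : B →ₗ[ℂ] A := l ∘ₗ (LinearMap.id - s ∘ₗ p) with ht
  have e1 : ∀ b, i (t b) = b - s (p b) := fun b => by
    obtain ⟨a, ha⟩ := hex (b - s (p b)) (by rw [map_sub, hs', sub_self])
    have : t b = l (b - s (p b)) := rfl
    rw [this, ← ha, hl']
  have e2 : ∀ a, t (i a) = a := fun a => by
    have : t (i a) = l (i a - s (p (i a))) := rfl
    rw [this, h0, map_zero, sub_zero, hl']
  have e3 : fB = (i ∘ₗ fA) ∘ₗ t + (fB ∘ₗ s) ∘ₗ p := LinearMap.ext fun b => by
    simp only [LinearMap.add_apply, LinearMap.comp_apply]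
    rw [← h1, e1, ← map_add, sub_add_cancel]
  have e4 : t ∘ₗ (i ∘ₗ fA) = fA := LinearMap.ext fun a => e2 _
  have e5 : p ∘ₗ (fB ∘ₗ s) = fC := LinearMap.ext fun c => by
    simp only [LinearMap.comp_apply]
    rw [h2, hs']
  rw [e3, map_add, LinearMap.trace_comp_comm', e4, LinearMap.trace_comp_comm', e5]

end ses

variable {V W : Type} [AddCommGroup V] [Module ℂ V] [AddCommGroup W] [Module ℂ W]

theorem trOn_eq {τ : V →ₗ[ℂ] V} {P : Submodule ℂ V} (h : ∀ v ∈ P, τ v ∈ P) :
    trOn τ P = LinearMap.trace ℂ P (τ.restrict h) := dif_pos h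

theorem trOn_bot (τ : V →ₗ[ℂ] V) : trOn τ ⊥ = 0 := by
  rw [trOn_eq (fun v hv => by rw [(Submodule.mem_bot ℂ).1 hv, map_zero]; exact zero_mem _),
    Subsingleton.elim (τ.restrict _) 0, map_zero]

theorem trOn_id (P : Submodule ℂ V) [FiniteDimensional ℂ P] :
    trOn LinearMap.id P = Module.finrank ℂ P := by
  rw [trOn_eq (fun v hv => hv), ← LinearMap.trace_id]
  rfl

/-- additivity of the trace -/
theorem trOn_add (τ : V →ₗ[ℂ] V) (τ' : W →ₗ[ℂ] W) (φ : V →ₗ[ℂ] W) {c : ℂ} (hc : c ≠ 0)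
    {P : Submodule ℂ V} [FiniteDimensional ℂ P] (hP : ∀ v ∈ P, τ v ∈ P)
    (h : ∀ v ∈ P, φ (τ v) = c • τ' (φ v)) :
    trOn τ P = trOn τ (P ⊓ LinearMap.ker φ) + c * trOn τ' (P.map φ) := by
  have h1 : ∀ v ∈ P ⊓ LinearMap.ker φ, τ v ∈ P ⊓ LinearMap.ker φ := fun v hv =>
    ⟨hP v hv.1, by
      have : φ v = 0 := hv.2
      show φ (τ v) = 0
      rw [h v hv.1, this, map_zero, smul_zero]⟩
  have h2 : ∀ w ∈ P.map φ, τ' w ∈ P.map φ := by
    rintro _ ⟨v, hv, rfl⟩
    refine ⟨c⁻¹ • τ v, P.smul_mem _ (hP v hv), ?_⟩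
    rw [map_smul, h v hv, smul_smul, inv_mul_cancel₀ hc, one_smul]
  haveI : FiniteDimensional ℂ (P ⊓ LinearMap.ker φ : Submodule ℂ V) :=
    Submodule.finiteDimensional_of_le inf_le_left
  rw [trOn_eq hP, trOn_eq h1, trOn_eq h2, ← smul_eq_mul, ← map_smul]
  refine trace_ses (Submodule.inclusion inf_le_left)
    (φ.restrict fun v hv => Submodule.mem_map_of_mem hv) (Submodule.inclusion_injective _) ?_
    (fun a => Subtype.ext a.2.2) (fun b hb => ⟨⟨b.1, b.2, congrArg Subtype.val hb⟩, rfl⟩) _ _ _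
    (fun a => rfl) fun b => Subtype.ext (h b.1 b.2)
  rintro ⟨_, v, hv, rfl⟩
  exact ⟨⟨v, hv⟩, rfl⟩

/-- the trace on a product -/
theorem trOn_pi {ι : Type} [Fintype ι] (τ : V →ₗ[ℂ] V) (P : ι → Submodule ℂ V)
    [∀ i, FiniteDimensional ℂ (P i)] (hP : ∀ i, ∀ v ∈ P i, τ v ∈ P i) :
    trOn (τ.compLeft ι) (Submodule.pi Set.univ P) = ∑ i, trOn τ (P i) := by
  classical
  haveI : FiniteDimensional ℂ (Submodule.pi Set.univ P) :=
    Module.Finite.of_injective (LinearMap.pi fun i =>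
      ((LinearMap.proj i).restrict fun v hv => hv i trivial :
        Submodule.pi Set.univ P →ₗ[ℂ] P i))
      fun v w e => Subtype.ext (funext fun i => congrArg Subtype.val (congrFun e i))
  let Q : Finset ι → Submodule ℂ (ι → V) := fun s =>
    Submodule.pi Set.univ P ⊓ Submodule.pi (↑s)ᶜ fun _ => ⊥
  have hQ : ∀ s v, v ∈ Q s ↔ (∀ i, v i ∈ P i) ∧ ∀ i, i ∉ s → v i = 0 := fun s v =>
    ⟨fun h => ⟨fun i => h.1 i trivial, fun i hi => h.2 i hi⟩,
      fun h => ⟨fun i _ => h.1 i, fun i hi => h.2 i hi⟩⟩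
  have key : ∀ s : Finset ι, trOn (τ.compLeft ι) (Q s) = ∑ i ∈ s, trOn τ (P i) := by
    intro s
    induction s using Finset.induction_on with
    | empty =>
      rw [Finset.sum_empty, ← trOn_bot (τ.compLeft ι)]
      congr 1
      exact eq_bot_iff.2 fun v hv => funext fun i => ((hQ _ _).1 hv).2 i (Finset.notMem_empty i)
    | insert j s hj ih =>
      haveI : FiniteDimensional ℂ (Q (insert j s)) := Submodule.finiteDimensional_of_le inf_le_left
      have e1 : (Q (insert j s)).map (LinearMap.proj j) = P j := by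
        refine le_antisymm ?_ fun v hv => ?_
        · rintro _ ⟨v, hv, rfl⟩
          exact ((hQ _ _).1 hv).1 j
        · refine ⟨(Pi.single j v : ι → V), (hQ _ _).2 ⟨fun i => ?_, fun i hi => ?_⟩, by simp⟩
          · by_cases e : i = j
            · subst e
              rw [Pi.single_eq_same]
              exact hv
            · rw [Pi.single_eq_of_ne e]
              exact zero_mem _
          · exact Pi.single_eq_of_ne (fun e : i = j => hi (Finset.mem_insert.2 (Or.inl e))) _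
      have e2 : Q (insert j s) ⊓ LinearMap.ker (LinearMap.proj j) = Q s := by
        refine le_antisymm (fun v hv => (hQ _ _).2 ⟨((hQ _ _).1 hv.1).1, fun i hi => ?_⟩)
          fun v hv => ⟨(hQ _ _).2 ⟨((hQ _ _).1 hv).1, fun i hi => ?_⟩, ((hQ _ _).1 hv).2 j hj⟩
        · by_cases e : i = j
          · subst e
            exact hv.2
          · exact ((hQ _ _).1 hv.1).2 i fun o => (Finset.mem_insert.1 o).elim e hi
        · exact ((hQ _ _).1 hv).2 i fun o => hi (Finset.mem_insert_of_mem o)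
      rw [trOn_add (τ.compLeft ι) τ (LinearMap.proj j) one_ne_zero ?_ (fun v _ => by
        rw [one_smul]; rfl), Finset.sum_insert hj, e1, e2, ih, one_mul, add_comm]
      intro v hv
      refine (hQ _ _).2 ⟨fun i => hP i _ (((hQ _ _).1 hv).1 i), fun i hi => ?_⟩
      show τ (v i) = 0
      rw [((hQ _ _).1 hv).2 i hi, map_zero]
  rw [← key Finset.univ]
  congr 1
  exact le_antisymm (fun v hv => (hQ _ _).2 ⟨fun i => hv i trivial, fun i hi =>
    (hi (Finset.mem_univ i)).elim⟩) inf_le_left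

/-- the functions killed by a power of `1 + T` -/
def Kil : ℕ → (ℤ → ℂ) → Prop
  | 0, f => ∀ᶠ m in atTop, f m = 0
  | c + 1, f => Kil c fun m => f (m + 1) + f m

theorem tendsto_succ : Tendsto (fun m : ℤ => m + 1) atTop atTop :=
  tendsto_atTop_add_const_right _ _ tendsto_id

theorem Kil.congr {c : ℕ} : ∀ {f g : ℤ → ℂ}, Kil c f → (∀ᶠ m in atTop, f m = g m) → Kil c g := by
  induction c with
  | zero => exact fun h e => (Eventually.and h e).mono fun _ k => k.2 ▸ k.1
  | succ c ih =>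
    intro f g h e
    refine ih (f := fun m => f (m + 1) + f m) h
      ((e.and (tendsto_succ.eventually e)).mono fun m k => ?_)
    rw [k.1, k.2]

theorem Kil.add {c : ℕ} : ∀ {f g : ℤ → ℂ}, Kil c f → Kil c g → Kil c fun m => f m + g m := by
  induction c with
  | zero =>
    intro f g h e
    refine (Eventually.and h e).mono fun m k => ?_
    show f m + g m = 0
    rw [k.1, k.2, add_zero]
  | succ c ih =>
    intro f g h e
    exact Kil.congr (c := c) (ih (f := fun m => f (m + 1) + f m) (g := fun m => g (m + 1) + g m) h e)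
      (Eventually.of_forall fun _ => by ring)

theorem Kil.shift {c : ℕ} : ∀ {f : ℤ → ℂ}, Kil c f → Kil c fun m => f (m + 1) := by
  induction c with
  | zero => exact fun h => tendsto_succ.eventually h
  | succ c ih => exact fun {f} h => ih (f := fun m => f (m + 1) + f m) h

theorem Kil.nonneg {c : ℕ} : ∀ {f : ℤ → ℂ}, Kil c f → ∀ (δ : ℤ) (n : ℤ → ℤ),
    (∀ᶠ m in atTop, 0 ≤ n m ∧ f m = ((δ - n m : ℤ) : ℂ)) → 0 ≤ δ := by
  induction c with
  | zero =>
    intro f h δ n e
    obtain ⟨m, h1, h2, h3⟩ := (Eventually.and h e).exists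
    rw [h1] at h3
    have : δ - n m = 0 := by exact_mod_cast h3.symm
    omega
  | succ c ih =>
    intro f h δ n e
    have := ih (f := fun m => f (m + 1) + f m) h (2 * δ) (fun m => n (m + 1) + n m)
      ((e.and (tendsto_succ.eventually e)).mono fun m k => ⟨add_nonneg k.2.1 k.1.1, by
        show f (m + 1) + f m = _
        rw [k.1.2, k.2.2]
        push_cast
        ring⟩)
    omega

end Vale.Agent.P297Z.Sf.Noe
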